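import Crest.Agent.X212.Jb7.Defs
import Crest.Agent.X212.Ink3.Main
import Crest.Agent.X212.Br55.Th
import Crest.Agent.X212.Line51.Ic

/-!
# Row 212, INST (helper26): the counting theory of scenes.  Definitions and leaves.

`Cor` : two cells of two jobs carry the same problem.  `Fam S j N` : a family of jobs, one for each
line of the scene, over the coordinates `S.A ⊕ Unit` (walls and one soft coordinate); `Fam.OK` is
the class.  `ZN`, `Z` : the counts.  The leaves are the `…Stmt`.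
-/

set_option autoImplicit false
set_option linter.unusedSectionVars false
noncomputable section
open scoped Manifold ContDiff Topology
open Set Function Filter

namespace Crest.Agent.X212.Ins26
open An M G75 Jb7 Wrd81
open Br55 (NC NS CN RN AxB)
open Line51 (Ln rl)
open Dr59 (mf)

/-! ### corresponding cells -/

section cor
variable {Wi Wi' : Type} {X X' : Mf 4} {A A₂ κ lam : Type} [Fintype A] [Fintype A₂] [Fintype κ]
  [Fintype lam] [DecidableEq lam] {M : Mark X A κ} {M' : Mark X' A₂ κ} {W : World M} {W' : World M'}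
  {N : ML M lam} {N' : ML M' lam} {Λ : Lns W N} {Λ' : Lns W' N'} {A' A'' h h' : Type} [Fintype A']
  [DecidableEq A'] [Fintype A''] [DecidableEq A''] [Fintype h] [Fintype h'] {r n : ℕ}
  (J : Job Wi Λ A' h r n) (σ : Cel A') (J' : Job Wi' Λ' A'' h' r n) (σ' : Cel A'') (e : Wi ↪ Wi')

/-- the unbroken points of a closed cell -/
def ub : Set (A' → ℝ) := {s | s ∈ Job.cl σ ∧ Sys.inf (J.Θ s).2 = ∅}

/-- no neck terms over the cell -/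
def NoNk : Prop := ∀ s ∈ ub J σ, ∀ a, J.ν a s = 0 ∨ Ink3.Nil (J.xs a).N ∧ (J.xs a).ty = 0

/-- the diffeomorphism `ψ`, the isometry `w` of the lines, the parameters `θ`, the cuts `η` -/
structure Cor0 (ψ : PartialDiffeomorph X.I X'.I X.M X'.M ∞) (w : X.M → Matrix lam lam ℂ)
    (θ : (A' → ℝ) → A'' → ℝ) (η : h ≃ h') : Prop where
  src : ψ.source = univ
  tgt : ψ.target = univ
  ori : Int54.SameOn M.o (Dr59.pm X.I X'.I ψ M'.o) univ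
  bij : BijOn θ (ub J σ) (ub J' σ')
  met : ∀ s ∈ ub J σ, ∀ x,
    Met55.Co (fun i => mf X.I X'.I ψ x (W.k (J.Θ s) x i)) (W'.k (J'.Θ (θ s)) (ψ x))
  lin : ∀ s ∈ ub J σ, Line51.Iso X.I ⟨N.p, Λ.a0 (J.Θ s)⟩
    (Ln.pull X.I X'.I ψ ⟨N'.p, Λ'.a0 (J'.Θ (θ s))⟩) w univ
  k : J'.k = J.k
  ct : ∀ i, (J.ct i).Rel (J'.ct (η i)) univ ψ fun x => rl (w x)
  co : ∀ s ∈ ub J σ, ∀ v, J'.co (e v) (θ s) = J.co v s ∧
    (J.co v s ≠ 0 → Eqv71.TmR univ ψ (fun x => rl (w x)) (J.tw v) (J'.tw (e v)))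
  cc : ∀ s ∈ ub J σ, ∀ i v, J'.cc (η i) (e v) (θ s) = J.cc i v s ∧
    (J.cc i v s ≠ 0 → Cnt93.TcR univ ψ (fun x => rl (w x)) (J.tc i v) (J'.tc (η i) (e v)))
  off : ∀ s ∈ ub J σ, ∀ v ∉ range e, J'.co v (θ s) = 0 ∧ ∀ i, J'.cc i v (θ s) = 0
  nk : NoNk J σ
  nk' : NoNk J' σ'

/-- **the cell `σ` of `J` and the cell `σ'` of `J'` carry the same unbroken problem** -/
def Cor : Prop := ∃ ψ w θ η, Cor0 J σ J' σ' e ψ w θ η

end cor

variable {κ lam : Type} [Fintype κ] [Fintype lam] [DecidableEq lam] {Lm : LM κ lam}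

variable (κ lam) in
/-- **LEAF COUNT-NAT** -/
def CntStmt : Prop := ∀ (Wi Wi' : Type) (X X' : Mf 4) (A A₂ : Type) [Fintype A] [Fintype A₂]
  (M : Mark X A κ) (M' : Mark X' A₂ κ) (W : World M) (W' : World M') (N : ML M lam) (N' : ML M' lam)
  (Λ : Lns W N) (Λ' : Lns W' N') (A' A'' h h' : Type) [Fintype A'] [DecidableEq A'] [Fintype A'']
  [DecidableEq A''] [Fintype h] [Fintype h'] (r n : ℕ) (J : Job Wi Λ A' h r n) (σ : Cel A')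
  (J' : Job Wi' Λ' A'' h' r n) (σ' : Cel A'') (e : Wi ↪ Wi'), J.OK → J'.OK → σ ∈ J.𝒦 → σ' ∈ J'.𝒦 →
  Cor J σ J' σ' e → ∀ q, J.z (rs e q) σ = J'.z q σ'

/-! ### families -/

section fam
variable (S : Scene Lm)

/-- the index at level zero -/
def d0 (i : S.L) : ℝ :=
  Classical.epsilon fun x => ∃ β sg l2, S.Nb i univ β sg l2 ∧ x = (l2 - sg) / 2 - 3 * β

/-- the level at which the index of a point is `n₀` -/
def kz (i : S.L) (j : ℕ) (n₀ : ℤ) : ℝ := (n₀ - 2 * j + 2 * S.ls.card - d0 S i) / 6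

/-- the hard walls -/
def hard (X : Finset S.A) : Set S.A := {a | S.M.pin a ∨ a ∈ S.ls ∨ a ∈ X}

variable {S} in
/-- the cell with the free walls `σ` and the soft coordinate `o` -/
def cel (σ : Finset S.A) (o : Option Bool) : Cel (S.A ⊕ Unit) :=
  Sum.elim (fun a => if a ∈ σ then none else some false) fun _ => o

/-- the number of free soft coordinates -/
def sf (o : Option Bool) : ℕ := o.elim 1 fun _ => 0

/-- families of jobs; `X` : further hard walls -/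
structure Fam (j N : ℕ) : Type 1 where
  D : S.Dat
  Wi : Type
  X : Finset S.A
  n₀ : ℤ
  uf : ℝ → ℝ
  Tf : S.A → ℝ → ℝ
  m : S.M.Cl
  𝒦 : S.L → Set (Cel (S.A ⊕ Unit))
  t : S.L → Tr Wi S.X.M (lam ⊕ lam) S.ls (S.A ⊕ Unit) (j + 1 + N) N

namespace Fam
variable {S} {j N : ℕ} (F : Fam S j N)

/-- the skeleton of the line `i` -/
@[reducible] def sk (i : S.L) : Sk (F.D.Λ i) Unit S.ls where
  H := hard S F.X
  fz := ↑S.fz
  uf s := F.uf (s ())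
  Tf a s := F.Tf a (s ())
  m := F.m
  𝒦 := F.𝒦 i
  k := kz S i j F.n₀
  ct := S.ct i
  nb := S.nb
  xs := (Ink3.xg0 Empty (S.N i)).xs
  g := (Ink3.xg0 Empty (S.N i)).g
  K := (Ink3.xg0 Empty (S.N i)).K (F.D.Λ i) F.m

/-- **the job of the line `i`** -/
@[reducible] def job (i : S.L) : Job F.Wi (F.D.Λ i) (S.A ⊕ Unit) S.ls (j + 1 + N) N :=
  ((F.sk i).job (j + 1 + N) N).put (F.t i)

/-- **the class**; the frozen necks are longer than `T` -/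
structure OK (T : ℝ) : Prop where
  Tf : ∀ a ∈ S.fz, ∀ u, F.Tf a u ∈ Ico T 1
  ok : ∀ i, (F.𝒦 i).Nonempty → (F.job i).OK
  loc : ∀ i, (F.𝒦 i).Nonempty → (F.job i).Loc (F.sk i).sh
  cell : ∀ i, ∀ σ' ∈ F.𝒦 i, ∃ τ o, σ' = cel τ o ∧ ↑τ ⊆ hard S F.X ∧
    ∃ σ ∈ S.K i, τ ⊆ σ ∧ NC S i σ ∧ F.n₀ + σ.card + sf o ≤ 1
  rich : ∀ i, ∀ σ' ∈ F.𝒦 i, ∀ s ∈ Job.cl σ', ∀ c : S.M.Cl, Sys.inf ((F.job i).Θ s).2 = c.1 →
    (F.job i).RichS s ∧ ∀ π, S.M.sys.Piece c.1 π →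
      ((∀ l ∈ S.ls, π l ≠ some false) → (F.job i).RichT s π) ∧
      ∀ l, S.nb l ⊆ S.M.sys.U π → (F.job i).RichC s π l
  van : ∀ i, ∀ σ' ∈ F.𝒦 i, ∀ s ∈ Job.cl σ', ∀ l : S.ls, s (.inl l) = 1 → ∀ w,
    ((F.t i).co w s ≠ 0 → TmIn S.X.I ((S.M.sys.w l).sd true) ((F.t i).tw w)) ∧
    ∀ l' ≠ l, (F.t i).cc l' w s ≠ 0 → XiIn S.X.I ((S.M.sys.w l).sd true) ((F.t i).tc l' w).ξ
  twin : ∀ i (l : S.ls), ∀ σ' ∈ F.𝒦 i, σ' ∈ F.𝒦 (S.fl l i) → ∀ s ∈ Job.cl σ', s (.inl l) = 1 → ∀ w,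
    ((F.t (S.fl l i)).co w s = (F.t i).co w s ∧
      ((F.t i).co w s ≠ 0 → (F.t (S.fl l i)).tw w = (F.t i).tw w)) ∧
    ∀ l' ≠ l, (F.t (S.fl l i)).cc l' w s = (F.t i).cc l' w s ∧
      ((F.t i).cc l' w s ≠ 0 → (F.t (S.fl l i)).tc l' w = (F.t i).tc l' w)

theorem OK.mono {F : Fam S j N} {T T' : ℝ} (h : F.OK T) (k : T' ≤ T) : F.OK T' :=
  { h with Tf := fun a ha u => ⟨k.trans (h.Tf a ha u).1, (h.Tf a ha u).2⟩ }

/-- the cells of the chain are cells of the family -/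
def Sub (c : Cn S.L S.A) (o : Option Bool) : Prop := ∀ i σ, c i σ ≠ 0 → cel σ o ∈ F.𝒦 i

/-- the count over a chain -/
def val (q : F.Wi →₀ ℝ) (c : Cn S.L S.A) (o : Option Bool) : ZMod 2 :=
  ∑ i, ∑ σ, c i σ * ((F.job i).z q (cel σ o) : ZMod 2)

/-- generic small perturbations are good -/
def KitAt : Prop := ∀ i, (F.𝒦 i).Nonempty →
  GV fun q => ∃ K : (F.job i).Kit, K.Ax ∧ K.GG q ∧ K.n₀ = F.n₀

/-- the faces at lens walls cancel -/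
def LensAt : Prop := ∀ i (l : S.ls) τ o, cel τ o ∈ F.𝒦 i → cel τ o ∈ F.𝒦 (S.fl l i) → l.1 ∈ τ →
  F.n₀ + τ.card + sf o = 1 → GV fun q => ((F.job i).zf q (cel τ o) (.inl l) : ZMod 2) =
    (F.job (S.fl l i)).zf q (cel τ o) (.inl l)

end Fam

open Classical in
/-- the count with `N` rows -/
def ZN (j N d : ℕ) (c : Cn S.L S.A) : ZMod 2 :=
  if c ≠ 0 ∧ ∀ᶠ T in 𝓝[<] (1 : ℝ), ∀ F : Fam S j N, F.OK T → F.X = ∅ → F.n₀ = -d →
    F.Sub c (some false) → GV fun q => F.val q c (some false) = 1 then 1 else 0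

open Classical in
/-- **the count** -/
def Z (j d : ℕ) (c : Cn S.L S.A) : ZMod 2 :=
  if ∀ᶠ N in (hyperfilter ℕ : Filter ℕ), ZN S j N d c = 1 then 1 else 0

end fam

/-! ### the leaves -/

variable (Lm)

/-- **LEAF KIT** -/
def KitStmt : Prop := ∀ (S : Scene Lm) j N, S.OK → ∀ᶠ T in 𝓝[<] (1 : ℝ), ∀ F : Fam S j N,
  F.OK T → F.X = ∅ → F.KitAt

/-- **LEAF LENS-CANCEL** -/
def LensStmt : Prop := ∀ (S : Scene Lm) j N, S.OK → ∀ᶠ T in 𝓝[<] (1 : ℝ), ∀ F : Fam S j N,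
  F.OK T → F.X = ∅ → F.LensAt

/-- **LEAF DAT** (`G75.exists_dat`) -/
def DatStmt : Prop := ∀ S : Scene Lm, S.OK → S.L → Nonempty S.Dat

/-- **LEAF EX**: families exist over all data, for every set `C` of good cells -/
def ExStmt : Prop := ∀ (S : Scene Lm) j N (D : S.Dat) (X : Finset S.A) (m : S.M.Cl) (n₀ : ℤ)
  (C : S.L → Set (Finset S.A)), S.OK → Disjoint X S.fz → (∀ a ∈ hard S X, ¬S.M.pin a → a ∈ m.1) →
  (∀ i, ∀ σ ∈ C i, σ ∈ S.K i ∧ NC S i σ ∧ ↑σ ⊆ hard S X ∧ n₀ + σ.card ≤ 1) → ∀ T < (1 : ℝ),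
  ∃ F : Fam S j N, F.OK T ∧ F.D = D ∧ F.X = X ∧ F.m = m ∧ F.n₀ = n₀ ∧ F.uf = 0 ∧
    (F.Tf = fun _ _ => max T 0) ∧ ∀ i, ∀ σ ∈ C i, cel σ (some false) ∈ F.𝒦 i

/-- **LEAF JOIN**: the prism between two families -/
def JoinStmt : Prop := ∀ (S : Scene Lm) j N d c T (F₀ F₁ : Fam S j N) (b₀ b₁ : Bool), CN S d c →
  T < 1 → F₀.OK T → F₁.OK T → F₀.n₀ = -d → F₁.n₀ = -d → F₀.Sub c (some b₀) → F₁.Sub c (some b₁) →
  ∃ (P : Fam S j N) (e₀ : F₀.Wi ↪ P.Wi) (e₁ : F₁.Wi ↪ P.Wi), (∀ a b, e₀ a ≠ e₁ b) ∧ P.OK T ∧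
    P.X = ∅ ∧ P.n₀ = -d ∧ P.Sub c none ∧ ∀ i σ, c i σ ≠ 0 →
      Cor (F₀.job i) (cel σ (some b₀)) (P.job i) (cel σ (some false)) e₀ ∧
      Cor (F₁.job i) (cel σ (some b₁)) (P.job i) (cel σ (some true)) e₁

/-- **LEAF NAT**: two-sided families -/
def NatStmt : Prop := ∀ (S S' : Scene Lm) (m : Mt S S' univ) j N d c, m.I.Glob →
  CN S d (m.l ∅ c) → CN S' d (m.r c) → ∀ T < (1 : ℝ),
  ∃ (F : Fam S j N) (F' : Fam S' j N) (e : F.Wi ↪ F'.Wi), F.OK T ∧ F'.OK T ∧ F.n₀ = -d ∧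
    F'.n₀ = -d ∧ F.Sub (m.l ∅ c) (some false) ∧ F'.Sub (m.r c) (some false) ∧ ∀ i σ, c i σ ≠ 0 →
      Cor (F.job (m.ι i)) (cel (σ.map m.I.f) (some false))
        (F'.job (m.ι' i)) (cel (σ.map m.I.f') (some false)) e

/-- the leaves of the invariance of the count -/
structure Core : Prop where
  kit : KitStmt Lm
  lens : LensStmt Lm
  cnt : CntStmt κ lam
  dat : DatStmt Lm
  ex : ExStmt Lm
  join : JoinStmt Lm

/-- **EVAL** (a theorem from `Core`): every family of the class computes `ZN` -/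
def EvalStmt : Prop := ∀ (S : Scene Lm) j N d c, CN S d c → ∀ᶠ T in 𝓝[<] (1 : ℝ),
  ∀ F : Fam S j N, F.OK T → F.n₀ = -d → ∀ b, F.Sub c (some b) →
    GV fun q => F.val q c (some b) = ZN S j N d c

variable {Lm} (T : Th Lm)

/-- **LEAF RF** (only `T.RS`, `T.DS` are used) -/
def RfStmt : Prop := ∀ (S S' : Scene Lm) (R e e' : S.A) (m : Mt S S' (hf S.M R true)) (R₀ : m.A₀)
  j N d c, m.I.f R₀ = R → m.I.ψ '' hf S.M R true = hf S'.M (m.I.f' R₀) true →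
  (∀ a ∈ S'.fz, ∃ a₀, m.I.f' a₀ = a ∧ m.I.f a₀ ∈ S.fz) → CN S' d (m.r c) →
  (∀ i σ, c i σ ≠ 0 → R₀ ∉ σ ∧
    (σ.map m.I.f ∪ {R, e} ∈ S.K (m.ι i) ∧ NC S (m.ι i) (σ.map m.I.f ∪ {R, e})) ∧
    (σ.map m.I.f ∪ {R, e'} ∈ S.K (m.ι i) ∧ NC S (m.ι i) (σ.map m.I.f ∪ {R, e'})) ∧
    (σ.map m.I.f' ∪ {m.I.f' R₀} ∈ S'.K (m.ι' i) ∧ NC S' (m.ι' i) (σ.map m.I.f' ∪ {m.I.f' R₀})) ∧
    T.RS S (m.ι i) R e e' ∧ T.DS S' (m.ι' i) (m.I.f' R₀) ∧ RN S (m.ι i) S' (m.ι' i)) →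
  CN S (d + 1) (m.l {e} c + m.l {e'} c) →
  ZN S j N (d + 1) (m.l {e} c + m.l {e'} c) = ZN S' j N d (m.r c)

/-- **LEAF FACT** (only `T.YD`, `T.Tm`) -/
def FactStmt : Prop := ∀ y : T.YD, ∃ R, ∀ (S : Scene Lm) j d c, T.Tm y R S c → CN S d c →
  ∀ᶠ N in atTop, ZN S j N d c = 0

/-- **LEAF NV** (only `T.NV`) -/
def NvStmt : Prop := ∀ (S : Scene Lm) i, T.NV S i → CN S 0 (Cn.gen i ∅) →
  ∃ j, ∀ᶠ N in atTop, ZN S j N 0 (Cn.gen i ∅) = 1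

/-- **the theory** -/
def th : Th Lm := { T with Z := Z }

end Crest.Agent.X212.Ins26
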