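import Crest.Agent.X212.Ins26.On
import Crest.Agent.X212.Brn93.Defs

/-!
# Row 212, LENS-GEO (helper26): the inside of a broken lens wall
-/

set_option autoImplicit false
set_option linter.unusedSectionVars false
noncomputable section
open scoped Manifold ContDiff Topology Real
open Set Function Filter
open Crest.Agent.R208.F (Ext)

namespace Crest.Agent.X212.Ins26.On
open An M G75 Lns95 Dr59
open Line51 (Ln rl)
open Met55 (atx Co)

variable {κ lam : Type} [Fintype κ] [Fintype lam] [DecidableEq lam] {Lm : LM κ lam}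

/-! ### the model -/

variable (Lm) in
/-- the inside of the model -/
abbrev N0 : Set Lm.X.M := (Lm.M.sys.w ()).sd false

variable (Lm) in
/-- the line of the model -/
abbrev L0 (σ : Bool) : Ln Lm.X.E Lm.X.M lam := ⟨(Lm.N σ).p, (Lm.b σ).b 0⟩

theorem on0 (σ : Bool) : (L0 Lm σ).On Lm.X.I univ :=
  ⟨(Lm.N σ).ok.sm, (Lm.N σ).ok.prj, (Lm.N σ).ok.tr, (Lm.b σ).sm 0, (Lm.b σ).dg 0⟩

section mod
variable {n : ℕ} (K : LOK Lm n) (σ : Bool) {x : Lm.X.M} (hx : x ∈ N0 Lm)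
include hx

theorem F_neg (hk : K.k (!σ) = -K.k σ) : (L0 Lm (!σ)).F Lm.X.I x = -(L0 Lm σ).F Lm.X.I x := by
  obtain ⟨b, hb⟩ := (K.L.D.cov x).1 hx
  have o := (K.L.D.ch b).op
  rw [(K.fr _ b).F_fr o ((on0 _).mono (subset_univ _)).sa hb,
    (K.fr σ b).F_fr o ((on0 _).mono (subset_univ _)).sa hb]
  refine .trans (congrArg (dM _ · x) (funext fun y => ?_)) (congrFun (dM_neg _) x)
  rw [hk, Pi.neg_apply, Prf.al, Prf.al, al, al, ← map_neg]
  refine congrArg _ (LinearMap.ext fun v => ?_)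
  simp only [LinearMap.add_apply, LinearMap.smul_apply, LinearMap.neg_apply, smul_eq_mul]
  push_cast
  ring

include K in
theorem F_band (h : x ∈ range (Lm.M.bn ()).j) : (L0 Lm σ).F Lm.X.I x = 0 := by
  have := Lm.M.cpt
  obtain ⟨_, F, -⟩ := Met55.exists_fr (I := Lm.X.I) (M := Lm.X.M)
  obtain ⟨b, hb⟩ := (K.L.D.cov x).1 hx
  obtain ⟨q, rfl⟩ := h
  have n0 : (n : ℝ) ≠ 0 := Nat.cast_ne_zero.2 K.L.n0
  have fr := K.fr σ
  generalize (-(K.k σ) / n : ℝ) = μ at fr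
  have t := Dsc.LF.tw (P := K.L.P) (h := K.L.P.H) (fun b => ⟨_, fr b⟩)
    (ψ1 := fun x => μ * K.L.P.f2 x) (c := -μ) ((on0 σ).mono (subset_univ _)) (Wz78.frm F)
    (fun b y _ h0 => by
      have x0 : 0 < ‖K.L.D.w b y‖ ^ 2 := by positivity
      have p := K.L.P.pra K.L.n0 x0
      have e : (fun x => μ * (n + x * K.L.P.p3 x)) =ᶠ[𝓝 (‖K.L.D.w b y‖ ^ 2)]
          fun x => μ * K.L.P.f1 x :=
        eventually_of_mem (Ioi_mem_nhds x0) fun x hx => congrArg (μ * ·) (K.L.P.ef1 x hx).symm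
      exact ⟨p.pf.ne', (contDiffAt_const.mul p.sf1).congr_of_eventuallyEq e,
        ((p.df1.const_mul μ).congr_of_eventuallyEq e).congr_deriv (mul_assoc ..).symm⟩)
    (fun x _ => by field_simp; ring)
  have g := K.L.band.hi b q hb
  have x0 := (K.L.band.pos _).trans_le g
  obtain ⟨-, f1, f2⟩ := K.L.fl _ _ g
  refine (Num57.cf F _).ext2' (((on0 σ).cl_F isOpen_univ).dg _ trivial) (fun _ _ => map_zero _)
    fun k l => (t b _ hb (fun e => by simp [e] at x0) (k, l)).trans ?_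
  simp only [← K.L.P.ef1 _ x0, f1, f2]
  simp [Num57.e2]

end mod

/-! ### the world -/

variable {S : Scene Lm} (hS : S.OK) (D : S.Dat) (l : S.ls) {m c : S.M.Cl} {p : Prm S.A}

variable (c) in
/-- the chart of the inside -/
abbrev Ph : PartialDiffeomorph Lm.X.I (D.W.Z c).I Lm.X.M (D.W.Z c).M ∞ :=
  (S.I l).ψ.trans (D.W.φ c)

variable (m c p) in
/-- the curvature -/
abbrev FZ (i : S.L) : (D.W.Z c).M → Ext (D.W.Z c).E := (((D.Λ i).Λ m c).ln p).F (D.W.Z c).I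

variable (i : S.L) (ha : Act m c l.1 (some false) p)
include hS ha

theorem pl : p.2 l ≠ 0 := (show p.2 l = 1 from ha.2.1.2 ha.2.2.2) ▸ one_ne_zero

include i in
theorem ph_src : N0 Lm ⊆ (Ph D l c).source := fun x hx =>
  ⟨LOK.hs hS l i hx, (LOK.src' hS D l ha.2.1 (pl hS l ha) i ⟨x, hx, rfl⟩).2⟩

omit ha in
include i in
theorem ph_img : Ph D l c '' N0 Lm = Om D c l := by
  rw [Om, ← LOK.img hS l i, image_image]; rfl

theorem iso_ph {n : ℕ} (K : LOK Lm n) : ∃ u, Line51.Iso Lm.X.I (L0 Lm (S.sg l i))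
    ((((D.Λ i).Λ m c).ln p).pull Lm.X.I (D.W.Z c).I (Ph D l c)) u (N0 Lm) :=
  have s := ph_src hS D l i ha
  have h := pl hS l ha
  ⟨_, ((K.iso_X (LOK.hs hS l i) ha.2.1.1 ((hS.wall l).symm ▸ h) ((hS.wall l).symm ▸ hS.lsi l l.2)
    (D.lstd i) (hS.ins l i) (D.con l i p.1)).trans (((D.Λ i).iso m c p ha.2.1).pull
      ⟨(pd_mp _ (LOK.hs hS l i)).sm, fun _ hx => (s hx).2⟩)).of_eq (fun _ _ => rfl) (fun _ _ => rfl)
    (fun _ _ => rfl) fun _ hx => (pm_comp ((Met55.pd_ld (s hx).2).mdifferentiableAt ne0)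
      ((Met55.pd_ld (s hx).1).mdifferentiableAt ne0)).symm⟩

theorem pm_FZ {n : ℕ} (K : LOK Lm n) {x : Lm.X.M} (hx : x ∈ N0 Lm) :
    pm Lm.X.I (D.W.Z c).I (Ph D l c) (FZ D m c p i) x = (L0 Lm (S.sg l i)).F Lm.X.I x :=
  let ⟨_, h⟩ := iso_ph hS D l i ha K
  have o := (Lm.M.sys.w ()).op_sd false
  ((((D.Λ i).Λ m c).ln_on p).F_pull isOpen_univ o
    ⟨(pd_mp _ (ph_src hS D l i ha)).sm, mapsTo_univ _ _⟩ hx).symm.trans
    (h.F_eq o ((on0 _).mono (subset_univ _)) hx)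

omit hS in
theorem fL_eq (x : (D.W.Z c).M) (s : Option κ × Option κ) :
    Wz78.fL ((D.Λ i).B m c) ((D.Λ i).G m c p) x s = Qab60.c2 (D.W.F m c p) (FZ D m c p i) x s :=
  fL_geo (((D.Λ i).Λ m c).ln_on p) _ ((D.Λ i).B_ok m c) s

/-- the data inside do not depend on the parameter -/
theorem agr {p' : Prm S.A} (ha' : Act m c l.1 (some false) p') :
    Cht98.Agr ((D.Λ i).G m c p) ((D.Λ i).G m c p') (Om D c l) := by
  have s := ph_src hS D l i ha
  have k : ∀ z ∈ Om D c l, (∀ a, (D.W.F m c p').e a z = (D.W.F m c p).e a z) ∧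
      ((D.Λ i).Λ m c).a p' z = ((D.Λ i).Λ m c).a p z := by
    rw [← ph_img hS D l i]
    rintro _ ⟨x, hx, rfl⟩
    have c0 := LOK.src' hS D l ha.2.1 (pl hS l ha) i ⟨x, hx, rfl⟩
    have c1 := LOK.src' hS D l ha'.2.1 (pl hS l ha') i ⟨x, hx, rfl⟩
    have o : ∀ {r : Prm S.A}, Act m c l.1 (some false) r → ∀ a : S.A, a ≠ l →
        (S.I l).ψ x ∈ range (S.M.bn a).j → r.2 a = 0 := fun hr a e k => by_contra fun h0 =>
      LOK.off (LOK.hs hS l i) hr.2.1.1 ((hS.wall l).symm ▸ pl hS l hr)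
        ((hS.wall l).symm ▸ hS.lsi l l.2) hx ((hS.wall l).symm ▸ e) h0 k
    have e : ∀ a, (S.I l).ψ x ∈ range (S.M.bn a).j → p'.2 a = p.2 a := fun a k => by
      by_cases e : a = l
      · rw [e]; exact (ha'.2.1.2 ha'.2.2.2).trans (ha.2.1.2 ha.2.2.2).symm
      · rw [o ha a e k, o ha' a e k]
    refine ⟨fun a => ?_, pm_inj (D.W.ld ((D.W.mem_src c).1 c0.2)) (add_left_cancel
      ((((D.Λ i).iso m c p' ha'.2.1).par _ c0.2).trans (Eq.trans ?_
        (((D.Λ i).iso m c p ha.2.1).par _ c0.2).symm)))⟩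
    · rw [World.F, World.F, Lay.F_e _ (Mark.mem_Ω _ ha.2.2.1), Lay.F_e _ (Mark.mem_Ω _ ha'.2.2.1)]
      exact congrFun (D.nrm.rig m c p' p _ (Mark.mem_Ω _ ha'.2.2.1 _) (Mark.mem_Ω _ ha.2.2.1 _)
        (((D.W.co m c p' ha'.2.1 _ c1.1).symm.trans ((std_co D.std D.std ha.2.1.1 ha'.2.1.1 e c0.1
          ((D.met l p.1 x hx).symm.trans (D.met l p'.1 x hx))).symm.map
            (Met55.dmp _ _ (D.W.φ c) _))).trans (D.W.co m c p ha.2.1 _ c0.1))) a
    · exact std_con (D.lstd i) (D.lstd i) ha.2.1.1 ha'.2.1.1 e (pm_inj (Met55.pd_ld (s hx).1)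
        ((D.con l i p'.1 x hx).trans (D.con l i p.1 x hx).symm))
  refine ⟨ph_img hS D l i ▸ pd_open _ ((Lm.M.sys.w ()).op_sd false) s, fun z hz => (k z hz).1,
    fun z hz a => congrArg rl ?_⟩
  exact (DFunLike.congr_fun (Line51.cm_congr (L := ((D.Λ i).Λ m c).ln p)
    (L' := ((D.Λ i).Λ m c).ln p') (.refl _ _) (k z hz).2) _).trans (congrArg _ ((k z hz).1 a))

omit hS ha D l i

theorem hz_dif {Y Y' : Mf 3} (g : Y.M ≃ₘ^∞⟮Y.I, Y'.I⟯ Y'.M) {k : ℕ} :
    HZ Y'.I k (univ : Set Y'.M) ↔ HZ Y.I k (univ : Set Y.M) := by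
  have := hz_pd (k := k) (W := univ) g.toPartialDiffeomorph isOpen_univ fun _ _ => trivial
  rwa [image_univ, show range g.toPartialDiffeomorph = univ from g.surjective.range_eq] at this

/-- **LEAF GEO** -/
theorem geo (H : LH Lm) : GeoStmt Lm := fun S D i l m c p Wi Y g K hS hc ha hY hK => by
  obtain ⟨L, hk⟩ := H.lok
  have s := ph_src hS D l i ha
  have im : Ph D l c '' N0 Lm = Om D c l := ph_img hS D l i
  have o0 := (Lm.M.sys.w ()).op_sd false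
  have cl := om_clopen hS l hc D
  have ld := fun x (hx : x ∈ N0 Lm) => Met55.pd_ld (s hx)
  refine ⟨?_, fun z hz r => ?_, fun _ => agr hS D l i ha⟩
  swap
  · obtain ⟨x, hx, rfl⟩ := im.ge hz
    have e : FZ D m c p (S.fl l i) _ = (-FZ D m c p i) _ := pm_inj (ld x hx) (by
      rw [pm_neg, Pi.neg_apply, pm_FZ hS D l _ ha L hx, pm_FZ hS D l _ ha L hx, hS.sg l l.2]
      exact F_neg L _ hx (by rw [(hk _).1, (hk _).1]; cases S.sg l i <;> rfl))
    rw [fL_eq D l _ ha, fL_eq D l _ ha]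
    exact (congrArg (Num57.e2 · _ _) e).trans (by simp [Num57.e2, Qab60.c2, Num57.k2])
  have lo := ((D.Λ i).Λ m c).ln_on p
  have cF := lo.cl_F isOpen_univ
  have one : Dfl49.One K 1 0 (Om D c l) := by
    simpa [M.pm] using Dfl49.one_W ha hK (fun a k => .inl (hc.le k)) le_rfl
  have z0 : ∀ z ∈ Om D c l, 0 < K.tm z → FZ D m c p i z = 0 := fun z hz k => by
    obtain ⟨x, hx, rfl⟩ := im.ge hz
    obtain ⟨y, h1, h2⟩ := (Dfl49.nk_image K one.J).ge (show 0 < 1 * K.tm _ by rwa [one_mul])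
    obtain ⟨q, h3, h4⟩ := hK.exists_nj ha (h2 ▸ K.ψ.map_source (K.mem_src.2 (one.J h1.2)))
    have h5 : (S.I l).ψ x ∈ range (S.M.bn ((S.I l).f' ())).j := by
      rw [hS.wall l]
      exact ⟨q, ((D.W.φ c).injOn (s hx).2 ((D.W.mem_src c).2 h3) h4).symm⟩
    refine pm_inj (b := 0) (ld x hx) ?_
    rw [pm_FZ hS D l _ ha L hx, pm_zero, F_band L _ hx ((Met55.mem_band _ () (s hx).1).1 h5)]
    rfl
  have cs : Cs (D.W.Z c).I 2 (Om D c l) ((Om D c l).indicator (FZ D m c p i)) :=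
    (cs_indicator cl.2 (cF.mono (subset_univ _)) (one.cpt 0) inter_subset_left fun z hz k =>
      z0 z hz (by simpa [hz] using k)).mono inter_subset_left
  obtain ⟨e, d, T, hT⟩ := H.lx.lat
  have so : Int54.SameOn Lm.M.o (pm Lm.X.I (D.W.Z c).I (Ph D l c) (D.W.o c)) (N0 Lm) := fun x hx => by
    have := Int54.SameOn.trans ((S.I l).ori.mono (LOK.hs hS l i)) (Int54.SameOn.pm
      ((D.W.oφ c).mono (subset_refl _)) (fun y hy => Met55.pd_ld (s hy).1) fun y hy => (s hy).2) x hx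
    rwa [pm_comp (f := (S.I l).ψ) ((Met55.pd_ld (s hx).2).mdifferentiableAt ne0)
      ((Met55.pd_ld (s hx).1).mdifferentiableAt ne0)] at this
  have T' := T.push (Ph D l c) s (D.W.ori c) so
  rw [im] at T'
  set w := (Om D c l).indicator (FZ D m c p i)
  have a : (ip (D.W.Z c).I (D.W.o c) w (psh (Ph D l c) (e ())) / (2 * π)) ^ 2 / d () = -1 := by
    rw [← hT (S.sg l i), (T'.cs ()).ip_congr (c' := FZ D m c p i) fun _ k => indicator_of_mem k _,
      (T.cs ()).ip_psh _ s (D.W.ori c) T.ori so,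
      (T.cs ()).ip_congr fun x hx => pm_FZ hS D l i ha L hx,
      ((T.cs ()).mono (subset_univ _)).ip_coh T.ori ((on0 _).cl_F isOpen_univ).sm
        ((Lm.N _).ok.cl_F isOpen_univ).sm (Line51.Uni.ex_F isOpen_univ
          (Line51.Iso.refl isOpen_univ (Lm.N _).ok).toUni (Lm.N _).ok (on0 _))]
  set A := ip (D.W.Z c).I (D.W.o c) w (psh (Ph D l c) (e ()))
  have a0 : A ≠ 0 := fun k => by simp [k] at a
  have d0 : d () ≠ 0 := fun k => by simp [k] at a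
  have ho := ha.2.2.1
  obtain ⟨C, bd⟩ := Cht98.bd_W (D.Λ i) m ho
  have ok := Num57.OK.of_base (D.W.Z c).dim ((D.Λ i).B_ok m c) ((D.Λ i).G_ok m ho)
  refine ⟨w, ⟨hY.yd, (D.Λ i).B_ok m c, (D.Λ i).G_ok m ho, cl, one, ?_,
    ⟨ok, ⟨C, bd.tame⟩, fun a b k r => ⟨C, bd.o a b k r⟩⟩, cs, fun z hz r => ?_, fun z k => ?_,
    fun f hf => ⟨ip (D.W.Z c).I (D.W.o c) f (psh (Ph D l c) (e ())) / A, ?_⟩, ?_, ?_⟩, ?_⟩
  · rw [← im]
    refine ⟨H.lx.sc.1.image _ ((Ph D l c).contMDiffOn.continuousOn.mono s), ?_⟩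
    rintro _ ⟨x, hx, rfl⟩
    exact image_singleton ▸ (H.lx.sc.2 x hx).image (Ph D l c).toOpenPartialHomeomorph s
      (singleton_subset_iff.2 hx)
  · rw [fL_eq D l _ ha]
    exact congrArg (Num57.e2 · _ _) (indicator_of_mem hz _)
  · exact indicator_apply_eq_zero.2 fun hz => z0 z hz k
  · refine T'.ex (hf.sub ((cs.on _).smul _)) fun ⟨⟩ => ?_
    rw [(T'.cs ()).ip_sub T'.ori hf.sm ((cs.on _).smul _).sm, ip_smul, div_mul_cancel₀ _ a0, sub_self]
  · have v := (Brn93.ok_ov ((D.W.L m c).F_vol p) (D.W.ori c)).2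
    rw [(D.W.L m c).ov_F (Mark.mem_Ω _ ho)] at v
    refine (Int54.integ_congr_ori ok.ori (D.W.ori c) v _).trans ((T'.diag (cs.on _) cs).trans ?_)
    rw [Fintype.sum_unique]
    have := Real.pi_pos
    field_simp at a ⊢
    linarith
  · have h1 := (hz_dif ((S.I l).g ())).2 H.lx.hz
    rw [hS.wall l] at h1
    exact (hz_dif g).1 h1
  · obtain ⟨hd, dg⟩ := H.deg (S.sg l i)
    obtain ⟨u, hu⟩ := iso_ph hS D l i ha L
    have hs : ∀ θ t, (Lm.cut (S.sg l i)).γ θ t ∈ N0 Lm := fun θ t => (hS.cut l i).sub ⟨(θ, t), rfl⟩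
    have h0 := fun θ => hd.h0 θ 0 le_rfl
    have h1 := fun θ => hd.h1 θ 1 le_rfl
    have f := Cut54.Deg.flx (L := ((D.Λ i).Λ m c).ln p)
      (γ := fun θ t => Ph D l c ((Lm.cut (S.sg l i)).γ θ t)) (dg.uni hd.sm h0 h1 hs hu.toUni)
      isOpen_univ lo (fun y => ((pd_mp _ s).sm _ (hs _ _)).comp y (hd.sm y))
      (fun θ => congrArg _ (h0 θ)) (fun θ => congrArg _ (h1 θ)) fun _ _ => trivial
    rw [Hol14.flux_congr (w' := FZ D m c p i) fun _ ⟨y, k⟩ =>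
      indicator_of_mem (k ▸ im.le ⟨_, hs _ _, rfl⟩) _]
    refine (congrArg abs f).trans ?_
    rw [abs_of_pos (by positivity)]
    push_cast
    ring

end Crest.Agent.X212.Ins26.On
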