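import Crest.Agent.X212.Ins26.Defs
import Crest.Agent.X212.Num57.Nb

/-!
# Row 212, INST (helper26): the level
-/

set_option autoImplicit false
noncomputable section
open Set

namespace Crest.Agent.X212.Ins26
open M G75 Dr59 Num57

variable {κ lam : Type} [Fintype κ] [Fintype lam] [DecidableEq lam] {Lm : LM κ lam} {S : Scene Lm}
  {i : S.L} {β sg l2 : ℝ}

theorem exists_nb_univ (i : S.L) : ∃ β sg l2, S.Nb i univ β sg l2 := by
  simpa using exists_nb (c := S.M.c0) S.M.sys.piece_top (by simp) i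

theorem d0_eq (h : S.Nb i univ β sg l2) : d0 S i = (l2 - sg) / 2 - 3 * β := by
  obtain ⟨β', sg', l2', h', e⟩ := Classical.epsilon_spec
    (p := fun x => ∃ β sg l2, S.Nb i univ β sg l2 ∧ x = (l2 - sg) / 2 - 3 * β) ⟨_, β, sg, l2, h, rfl⟩
  obtain ⟨rfl, rfl, rfl⟩ := nb_uniq h h'
  exact e

/-- the index of a point at the level `kz` -/
theorem wt_kz (h : S.Nb i univ β sg l2) (j : ℕ) (n₀ : ℤ) :
    Wt β sg l2 0 S.ls.card (kz S i j n₀) - 4 + 2 * j = n₀ := by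
  rw [Wt, kz, d0_eq h]; push_cast; ring

/-- on the closed manifold `Λ²` is the integral -/
theorem l2_eq (h : S.Nb i univ β sg l2) :
    l2 = ip S.X.I S.M.o (S.cu i) (S.cu i) / (2 * Real.pi) ^ 2 := by
  obtain ⟨_, _, _, _, _, k, -⟩ := id h
  have := S.M.cpt
  exact (nb_eq h k).2.2.trans (congrArg (· / _) (k.ip_eq (cl_FL isOpen_univ)
    ⟨cl_FL isOpen_univ, HasCompactSupport.of_compactSpace _, subset_univ _⟩).symm)

/-- lines with the same square -/
theorem d0_congr {i' : S.L}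
    (e : ip S.X.I S.M.o (S.cu i') (S.cu i') = ip S.X.I S.M.o (S.cu i) (S.cu i)) : d0 S i' = d0 S i := by
  obtain ⟨β, sg, l2, h⟩ := exists_nb_univ i
  obtain ⟨β', sg', l2', h'⟩ := exists_nb_univ i'
  obtain ⟨_, _, _, _, _, k, -⟩ := id h
  rw [d0_eq h, d0_eq h', l2_eq h, l2_eq h', e, (nb_eq h k).1, (nb_eq h k).2.1, (nb_eq h' k).1,
    (nb_eq h' k).2.1]

theorem d0_fl (hS : S.OK) {l : S.A} (hl : l ∈ S.ls) (i : S.L) : d0 S (S.fl l i) = d0 S i :=
  d0_congr (hS.lv l hl i)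

theorem kz_fl (hS : S.OK) {l : S.A} (hl : l ∈ S.ls) (i : S.L) (j : ℕ) (n₀ : ℤ) :
    kz S (S.fl l i) j n₀ = kz S i j n₀ := by rw [kz, kz, d0_fl hS hl]

end Crest.Agent.X212.Ins26
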