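import Crest.Agent.X212.Lns95.Lf
import Crest.Agent.X212.Ins30.Cnt
import Crest.Agent.X212.Ins26.D0
import Crest.Agent.X212.G75.Std

/-!
# Row 212, LENS-ONAT (helper26): outside a broken lens wall the two jobs carry the same problem
-/

set_option autoImplicit false
set_option linter.unusedSectionVars false
noncomputable section
open scoped Manifold ContDiff Topology Matrix
open Set Function Filter

namespace Crest.Agent.X212.Ins26.On
open An M G75 Eqv71 Cnt93 Ins30 Lns95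
open Line51 (Ln rl)

section wld
variable {X : Mf 4} {A κ lam : Type} [Fintype A] [Fintype κ] [Fintype lam] [DecidableEq lam]
  {M : Mark X A κ} {W : World M} {N N' : ML M lam} (Λ : Lns W N) (Λ' : Lns W N') (m c : M.Cl)
  {V : Set X.M} {p : Prm A}

/-- the isometry of the lines -/
def uu (z : (W.Z c).M) : Matrix lam lam ℂ := tw m c m c id Λ Λ' N.p ((W.φ c).symm z)

variable {c}

theorem uu_φ {x : X.M} (hx : x ∉ M.sys.cores c.1) :
    uu Λ Λ' m c (W.φ c x) = tw m c m c id Λ Λ' N.p x :=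
  congrArg (tw m c m c id Λ Λ' N.p) ((W.φ c).left_inv ((W.mem_src c).2 hx))

theorem trn_p (N : ML M lam) (x : X.M) (a : Eu (lam ⊕ lam)) :
    trn (rl (N.p x)) (rl (N.p x) a) = trn (rl (N.p x)) a := by
  rw [← Line51.rl_ct, (N.ok.prj x trivial).herm, ← ContinuousLinearMap.comp_apply,
    ← Line51.rl_comp, (N.ok.prj x trivial).idem]

variable (hU : V ⊆ (M.sys.cores c.1)ᶜ)
include hU

theorem sq (h : Line51.Uni X.I N.p N'.p N.p V) :
    Sq (Tp.of (W.φ c).toPartialEquiv fun x => rl (Λ.v m c x))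
      (Tp.of (W.φ c).toPartialEquiv fun x => rl (Λ'.v m c x)) V id (fun x => rl (N.p x))
      (W.φ c '' V) id fun z => rl (uu Λ Λ' m c z) := sq_of _ _ fun z hz => by
  obtain ⟨x, hx, rfl⟩ := hz
  have k := (W.mem_src c).2 (hU hx)
  have a := h.iso x hx
  have b := (Λ.uni m c).iso x k
  have d := (Λ'.uni m c).iso x k
  refine ⟨x, hx, k, rfl, k, rfl, ?_⟩
  rw [uu_φ Λ Λ' m (hU hx)]
  refine Cut54.sq_rl a b d (b.symm.trans (a.trans d)) ?_
  rw [tw, Matrix.mul_assoc, b.src, Matrix.mul_assoc, a.idem, id]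

theorem kg (hp : p ∈ M.Br c.1) (ho : p ∈ M.O c.1) (hV : IsOpen V)
    (h : Line51.Iso X.I ⟨N.p, Λ.a0 p⟩ ⟨N'.p, Λ'.a0 p⟩ N.p V) :
    KG (Λ.B m c) (Λ.G m c p) (Λ'.B m c) (Λ'.G m c p) (W.φ c '' V) (W.φ c '' V) id id
      (fun x b a => (Λ.B m c).P b a x) fun z => rl (uu Λ Λ' m c z) := by
  have hO : IsOpen (W.φ c '' V) := (W.φ c).toOpenPartialHomeomorph.isOpen_image_of_subset_source hV
    fun x hx => (W.mem_src c).2 (hU hx)
  have g := (Λ.Λ m c).geq (Ψ := .ofSet _ hO) (Λ'.Λ m c) (W.ori c) (W.ori c) (Mark.mem_Ω _ ho)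
    (Mark.mem_Ω _ ho) contMDiffOn_id contMDiffOn_id (fun z _ => co_of_eq fun i =>
      DFunLike.congr_fun (Dr59.mf_id (I := (W.Z c).I) z) _)
    ((Dr59.pm_id (I := (W.Z c).I) (W.o c)).symm ▸ (W.ori c).same _)
    (iso_tr (m := m) (m' := m) (ψ := id) (Ψ := id) Λ Λ' hp hp hV hU hU (fun _ _ => contMDiffAt_id)
      (fun _ _ => contMDiffAt_id) (fun _ _ => rfl) (h.of_eq (fun _ _ => rfl) (fun _ _ => rfl)
        (fun _ _ => rfl) fun x _ => congrFun (Dr59.pm_id _) x)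
      fun x hx => uu_φ Λ Λ' m (hU hx))
  have e : Met55.rotU (W.F m c p).toPre (W.F m c p).toPre id = fun x b a => (Λ.B m c).P b a x := by
    funext z b a
    exact (rotU_lit ((Diffeomorph.refl _ _ ∞).isLocalDiffeomorph z) (fun i =>
      DFunLike.congr_fun (Dr59.mf_id (I := (W.Z c).I) z) _) b a).trans
        (congrFun (congrFun (congrFun ((W.L m c).F_P (Mark.mem_Ω _ ho)) b) a) z)
  have k : KG (Λ.B m c) (Λ.G m c p) (Λ'.B m c) (Λ'.G m c p) _ (id '' (W.φ c '' V)) id id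
      (Met55.rotU (W.F m c p).toPre (W.F m c p).toPre id) _ :=
    kg_of_geq g (Λ.B_ok _ _) (Λ.G_ok _ ho) (Λ'.B_ok _ _) (Λ'.G_ok _ ho) hO subset_rfl
  rwa [image_id, e] at k

omit hU
variable {A₀ : Type} [Fintype A₀] {f : A₀ ↪ A} (o : LId N N' (selfId M f) V N.p)
include o

theorem ly (a : A₀) : N'.LY (f a) = N.LY (f a) :=
  (Line51.Ln.pull_id (I := (M.bn (f a)).Y.I) (N'.LY (f a))).symm.trans (o.LY a)

theorem lit {a : A₀} {q : (M.bn (f a)).Y.M × ℝ} (hq : (M.bn (f a)).j q ∈ V)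
    (hl : M.Lit m.1 c.1 (f a) q.2) :
    uu Λ Λ' m c (W.nj c (f a) q) = (Λ.Λ m c).p (W.nj c (f a) q) :=
  (uu_φ _ _ _ hl.not_mem).trans (tw_lit (I := selfId M f) (a := a) Λ Λ' o hq hl hl)

variable {Λ Λ'} in
theorem con {b b' : LBas X univ} (h : LStd Λ b) (h' : LStd Λ' b') (hp : p.2 ∈ M.sys.Par)
    (hf : ∀ a, p.2 a ≠ 0 → a ∈ range f) {x : X.M} (hx : x ∈ V) (hb : b'.b p.1 x = b.b p.1 x) :
    Line51.th X.I N.p x + Λ'.a0 p x = Λ.a0 p x := by
  have e : ∀ β : X.M → _, Dr59.pm X.I X.I (selfId M f).ψ β x = β x := fun β =>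
    congrFun (Dr59.pm_id β) x
  rw [← e (Λ'.a0 p)]
  refine RelAt.con (u := p.1) (u' := p.1) (t := p.2) (t' := p.2) ⟨hp, hp, trivial, fun a ha _ => ?_,
    fun a ha _ => ?_⟩ h h' o hx (by rw [th_p, zero_add, e, hb]) <;> obtain ⟨a, rfl⟩ := hf a ha
  exacts [⟨a, rfl, rfl⟩, ⟨a, rfl, ha⟩]

end wld

variable {κ lam : Type} [Fintype κ] [Fintype lam] [DecidableEq lam] {Lm : LM κ lam} {S : Scene Lm}
  (hS : S.OK) (l : S.ls) {c : S.M.Cl} (hc : c.1 = {l.1})

/-- the outside -/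
abbrev Vo (l : S.ls) : Set S.X.M := (S.M.sys.w l).sd true

include hc in
theorem sd_sub (b : Bool) : (S.M.sys.w l).sd b ⊆ (S.M.sys.cores c.1)ᶜ := fun x hx k => by
  rw [hc, Sys.cores, biUnion_singleton] at k
  exact k b hx

include hS hc in
theorem om_compl (D : S.Dat) : (Om D c l)ᶜ = D.W.φ c '' Vo l := by
  have s := fun b x (h : x ∈ (S.M.sys.w l).sd b) => (D.W.mem_src c).2 (sd_sub l hc b h)
  refine Subset.antisymm (fun z hz => ?_) ?_
  · obtain ⟨x, hx, rfl⟩ := Met55.exists_src (z := z) ((D.W.tgt c).ge fun a ha k => by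
      rw [hc] at ha
      exact (hS.lsp l l.2 (ha ▸ k)).elim)
    have := (D.W.mem_src c).1 hx
    rw [hc, Sys.cores, biUnion_singleton] at this
    obtain ⟨b, hb⟩ := not_forall.1 this
    cases b
    exacts [(hz ⟨x, not_not.1 hb, rfl⟩).elim, ⟨x, not_not.1 hb, rfl⟩]
  · rintro _ ⟨x, hx, rfl⟩ ⟨y, hy, e⟩
    obtain rfl := (D.W.φ c).injOn (s _ _ hy) (s _ _ hx) e
    exact Wall.not_mem_sd _ hy hx

include hS hc in
theorem om_clopen (D : S.Dat) : IsClopen (Om D c l) :=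
  have o := fun b => (D.W.φ c).toOpenPartialHomeomorph.isOpen_image_of_subset_source
    ((S.M.sys.w l).op_sd b) fun _ h => (D.W.mem_src c).2 (sd_sub l hc b h)
  ⟨⟨om_compl hS l hc D ▸ o true⟩, o false⟩

open Classical in
include hS in
theorem cy_fl (i : S.L) : (S.N (S.fl l i)).cy l = (S.N i).cy l :=
  congrArg (Cy.mk _ _) (ly (hS.out l l.2 i) ⟨l, subset_union_right⟩)

open Classical in
include hS in
/-- the connections agree outside -/
theorem iso_out (D : S.Dat) (i : S.L) {p : Prm S.A} (hp : p.2 ∈ S.M.sys.Par) (h1 : p.2 l ≠ 0) :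
    Line51.Iso S.X.I ⟨(S.N i).p, (D.Λ i).a0 p⟩ ⟨(S.N (S.fl l i)).p, (D.Λ (S.fl l i)).a0 p⟩
      (S.N i).p (Vo l) := by
  have o := hS.out l l.2 i
  refine ⟨o.uni.mono subset_union_left, fun x hx => con o (D.lstd i) (D.lstd _) hp (fun a ha => ⟨⟨a, ?_⟩, rfl⟩)
    (.inl hx) (D.agr l l.2 i _ (.inl hx))⟩
  by_cases e : a = l
  exacts [e ▸ subset_union_right, (hS.lsi l l.2 a e (hp.2 ha h1 e)).trans subset_union_left]

include hS in
theorem nb_sub {l' : S.ls} (h : l' ≠ l) : S.nb l' ⊆ Vo l := fun x hx => by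
  have := disjoint_left.1 (hS.lsd l' l'.2 l l.2 (Subtype.ext_iff.not.1 h)) (.inl hx)
  obtain ⟨b, hb⟩ := (S.M.sys.w l).cov x fun k => this (.inr k)
  cases b
  exacts [(this (.inl hb)).elim, hb]

/-- **LEAF ONAT** -/
theorem onat : OnatStmt Lm := fun S j N F T i l σ c hS hF h1 h2 hc => by
  refine ⟨cy_fl hS l i, kz_fl hS l.2 i j _, fun z => rl (uu (F.D.Λ i) (F.D.Λ (S.fl l i)) F.m c z),
    fun s hs o => ?_⟩
  have hJ := hF.ok i ⟨σ, h1⟩
  have hJ' := hF.ok _ ⟨σ, h2⟩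
  have o' : (F.job (S.fl l i)).Ov σ c s := o
  have e1 : ((F.job i).Θ s).2 l = 1 := (o.2.trans hc).ge rfl
  have e : s (.inl l) = 1 := by
    obtain ⟨a | a, k, k'⟩ := hJ.inf σ h1 s o.1 l e1
    · obtain rfl : a = l := by
        by_cases h : a ∈ hard S F.X <;> simp_all
      exact k'
    · cases k
  have U := sd_sub l hc true
  have I := iso_out hS l F.D i (hJ.par σ h1 s o.1) (by rw [e1]; exact one_ne_zero)
  have Q : Sq ((F.job i).tp c) ((F.job (S.fl l i)).tp c) _ _ _ _ _ _ :=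
    sq (F.D.Λ i) (F.D.Λ (S.fl l i)) F.m U I.toUni
  have cl := (om_clopen hS l hc F.D).compl.1
  rw [om_compl hS l hc] at cl ⊢
  have g : KT ((F.job i).B c) ((F.job i).G c s) ((F.job (S.fl l i)).B c)
      ((F.job (S.fl l i)).G c s) _ _ _ _ _ _ := kt_of (kg _ _ F.m U (hJ.memBr h1 o) (hJ.memO h1 o) ((S.M.sys.w l).op_sd true) I) cl cl
    (hJ.tame h1 o) (hJ'.tame h2 o')
  have t := hF.twin i l σ h1 h2 s hs e
  have q := trn_p (S.N i)
  refine ⟨g, fun q₀ => ?_, fun l' u ne => ?_, fun ha z hz => ?_⟩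
  · rw [Ink3.τ_nil _ _ (fun _ => Ink3.nd0_nil) fun _ _ => rfl,
      Ink3.τ_nil _ _ (fun _ => Ink3.nd0_nil) fun _ _ => rfl]
    refine prel0_fsum (fun v => ?_) _
    obtain ⟨k1, k2⟩ := (t v).1
    change (F.job (S.fl l i)).co v s = (F.job i).co v s at k1
    rw [Ink3.τf, Ink3.τf, k1]
    by_cases h0 : (F.job i).co v s = 0
    · rw [h0]
      exact prel0_zero (mapsTo_id _) (fun _ _ _ => ⟨zero_smul _ _, zero_smul _ _⟩)
        (fun _ _ _ => ⟨zero_smul _ _, zero_smul _ _⟩) (fun _ _ => by simp [Pt.smul])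
        fun _ _ => by simp [Pt.smul]
    · refine (tm_rel0 g (Q.tm ?_) (hJ.tw_in h1 o h0).choose_spec
        (hJ'.tw_in h2 o' (k1 ▸ h0)).choose_spec).smul _
      rw [show (F.job (S.fl l i)).tw v = _ from k2 h0]
      exact tmR_refl _ q _
  · have R : ((F.job i).cut c l').Rel ((F.job (S.fl l i)).cut c l') _ id _ := Q.cut (k := S.ct i l')
      (k' := S.ct (S.fl l i) l') (by
        rw [hS.ct_fl l' l.2 fun k => ne (Subtype.ext k.symm)]
        exact ⟨(hJ.nb l').2.sub.trans (nb_sub hS l ne), fun _ _ => rfl,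
          List.forall₂_same.2 fun _ _ => ⟨fun _ _ => rfl, fun _ _ => rfl, fun _ _ => rfl⟩,
          List.forall₂_same.2 fun _ _ => ⟨fun x _ => (q x _).symm, fun _ _ => rfl, fun _ _ => rfl⟩⟩)
      fun x hx => ⟨⟨x, hx, rfl⟩, rfl⟩
    refine ⟨R, fun q₀ {x x' u' ζ} k ξ a => ?_⟩
    simp only [Job.σc, Finsupp.sum, _root_.sum_apply, _root_.smul_apply, map_sum, map_smul]
    refine Finset.sum_congr rfl fun v _ => ?_
    obtain ⟨k1, k2⟩ := (t v).2 l' ne
    rw [k1]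
    by_cases h0 : (F.t i).cc l' v s = 0
    · rw [h0, mul_zero, zero_smul, zero_smul]
    have r : TcR (Vo l) id (fun x => rl ((S.N i).p x)) ((F.t i).tc l' v) ((F.t (S.fl l i)).tc l' v) := by
      rw [k2 h0]
      refine ⟨rfl, rfl, rfl, ?_⟩
      cases ((F.t i).tc l' v).ξ
      exacts [.one, .aw (awR_refl _ _), .qj (coR_refl _ q _) (sR_refl _ q _) (swR_refl _ _)
        (swR_refl _ _) (lasR_refl _ _)]
    have := k.tc g ξ (hJ.ct σ h1 s o.1 _ o.2 l' u) (hJ'.ct σ h2 s o'.1 _ o'.2 l' u) R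
      (Q.tc r) (hJ.tc_in h1 o h0).choose_spec (hJ'.tc_in h2 o' (k1.trans_ne h0)).choose_spec a
    rw [this]
  · set K := (F.job i).K c l.1 _ _ ha
    have n := hJ.nk _ _ _ _ ha
    have e' : K.J = Nd18.Jv (Cht98.np 1 true) (Cht98.nq 1 true) := by
      rw [Nd18.Nk.J, n.lo, n.hi]
      simp [Cht98.np, Cht98.nq]
    obtain ⟨r, ⟨r1, r2⟩, r3⟩ := (Cht98.bijOn_len le_rfl true).surjOn
      (e' ▸ K.mem_src.1 (K.ψ.map_target hz))
    replace r2 := r2.resolve_left (lt_irrefl _)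
    have k := n.ψ (K.ψ.symm z).1 r r2 r1.2
    rw [e1, Option.getD_some, r3, K.ψ.right_inv hz] at k
    have L : S.M.Lit F.m.1 c.1 l r := ⟨(abs_lt.2 r1).le, .inl ⟨ha.2.2.2, ne_of_gt r2⟩⟩
    rw [k]
    classical
    exact congrArg rl (lit _ _ _ (hS.out l l.2 i) (a := ⟨l, subset_union_right⟩) (.inr ⟨_, rfl⟩) L)

end Crest.Agent.X212.Ins26.On
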