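import Crest.Agent.X212.Ins26.Stk
import Crest.Agent.X212.Nd18.Ms2

/-!
# Row 212, INST (helper26): evaluation of the count, the axioms of the theory from the leaves
-/

set_option autoImplicit false
set_option linter.unusedSectionVars false
noncomputable section
open scoped Manifold ContDiff Topology
open Set Function Filter

namespace Crest.Agent.X212.Ins26
open An M G75 Jb7
open Br55 (NC NS CN RN AxB)

theorem z2 (v : ZMod 2) : v = 0 ∨ v = 1 := by revert v; decide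

theorem ev_ge {T : ℝ} (h : T < 1) : ∀ᶠ T' in 𝓝[<] (1 : ℝ), T ≤ T' ∧ T' < 1 := Ico_mem_nhdsLT h

theorem ev_lt : ∀ᶠ T in 𝓝[<] (1 : ℝ), T < 1 := self_mem_nhdsWithin

variable {κ lam : Type} [Fintype κ] [Fintype lam] [DecidableEq lam] {Lm : LM κ lam} {S : Scene Lm}
  {j N d : ℕ} {c c' : Cn S.L S.A} {o : Option Bool} {T : ℝ}

theorem ne_add {i : S.L} {σ : Finset S.A} (h : (c + c') i σ ≠ 0) : c i σ ≠ 0 ∨ c' i σ ≠ 0 :=
  by_contra fun k => h (by rw [not_or, not_not, not_not] at k; simp [k.1, k.2])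

theorem cn_add (h : CN S d c) (h' : CN S d c') : CN S d (c + c') :=
  ⟨h.ok, ⟨⟨fun i σ k => (ne_add k).elim (h.cl.mem i σ) (h'.cl.mem i σ), fun l hl i σ k => by
      simp only [Pi.add_apply, h.cl.sym l hl i σ k, h'.cl.sym l hl i σ k]⟩, by
      have e : (c + c').bd = c.bd + c'.bd := by
        funext i τ; simp [Cn.bd, Ch.bdry, Finset.sum_add_distrib]
      rw [e, h.cl.bd, h'.cl.bd, add_zero]⟩,
    fun i σ k => (ne_add k).elim (h.ns i σ) (h'.ns i σ)⟩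

theorem hard_of (h : S.Sf d c) {i : S.L} {σ : Finset S.A} (k : c i σ ≠ 0) (X : Finset S.A) :
    ↑σ ⊆ hard S X := fun a ha => ((h.mem i σ k).2.2 a ha).imp_right .inl

/-- the cell of the lens walls -/
def mL (h : S.OK) : S.M.Cl := ⟨↑S.ls, fun l hl l' hl' k =>
  (h.lsd l hl l' hl' k).mono subset_union_right subset_union_right⟩

namespace Fam
variable (F : Fam S j N) (q : F.Wi →₀ ℝ)

theorem val_zero : F.val q 0 o = 0 := by simp [val]

theorem val_add : F.val q (c + c') o = F.val q c o + F.val q c' o := by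
  simp [val, add_mul, Finset.sum_add_distrib]

theorem val_gen (i : S.L) (σ : Finset S.A) :
    F.val q (Cn.gen i σ) o = ((F.job i).z q (cel σ o) : ZMod 2) := by
  rw [val, Finset.sum_eq_single i (fun i' _ k => by simp [Cn.gen, k]) (by simp),
    Finset.sum_eq_single σ (fun σ' _ k => by simp [Cn.gen, k]) (by simp)]
  simp [Cn.gen]

theorem val_lx {L A : Type} [Fintype L] [DecidableEq L] [Fintype A] [DecidableEq A]
    (g : L → Finset A → Cn S.L S.A) (c : Cn L A) :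
    F.val q (Cn.lx g c) o = ∑ i, ∑ σ, c i σ * F.val q (g i σ) o := by
  simp only [val, Cn.lx, Finset.sum_apply, Pi.smul_apply, smul_eq_mul, Finset.sum_mul,
    Finset.mul_sum, mul_assoc]
  rw [Finset.sum_congr rfl fun _ _ => Finset.sum_comm, Finset.sum_comm]
  refine Finset.sum_congr rfl fun i _ => ?_
  rw [Finset.sum_congr rfl fun _ _ => Finset.sum_comm, Finset.sum_comm]

theorem val_pj {L A : Type} [Fintype L] [DecidableEq L] [Fintype A] [DecidableEq A]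
    (ι : L → S.L) (f : A ↪ S.A) (τ : Finset S.A) (c : Cn L A) : F.val q (Cn.pj ι f τ c) o =
      ∑ i, ∑ σ, c i σ * ((F.job (ι i)).z q (cel (σ.map f ∪ τ) o) : ZMod 2) := by
  simp only [Cn.pj, val_lx, val_gen]

end Fam

theorem pj_apply {L A L' A' : Type} [Fintype L] [DecidableEq L] [Fintype A] [DecidableEq A]
    [DecidableEq L'] [DecidableEq A'] (ι : L ↪ L') (f : A ↪ A') (c : Cn L A) (i : L) (σ : Finset A) :
    Cn.pj ι f ∅ c (ι i) (σ.map f) = c i σ := by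
  simp only [Cn.pj, Cn.lx, Finset.sum_apply, Pi.smul_apply, smul_eq_mul, Finset.union_empty]
  rw [Finset.sum_eq_single i (fun i' _ k => by simp [Cn.gen, k.symm]) (by simp),
    Finset.sum_eq_single σ (fun σ' _ k => by simp [Cn.gen, k.symm]) (by simp)]
  simp [Cn.gen]

namespace Core
variable (H : Core Lm)
include H

/-- a family over good cells -/
theorem fam (hS : S.OK) (i₀ : S.L) (n₀ : ℤ) (C : S.L → Finset S.A → Prop)
    (h : ∀ i σ, C i σ → σ ∈ S.K i ∧ NC S i σ ∧ ↑σ ⊆ hard S ∅ ∧ n₀ + σ.card ≤ 1) (hT : T < 1) :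
    ∃ F : Fam S j N, F.OK T ∧ F.X = ∅ ∧ F.n₀ = n₀ ∧ ∀ i σ, C i σ → cel σ (some false) ∈ F.𝒦 i :=
  let ⟨D⟩ := H.dat S hS i₀
  let ⟨F, h1, _, h2, _, h3, _, _, h4⟩ := H.ex S j N D ∅ (mL hS) n₀ C hS (by simp)
    (fun _ ha k => (ha.resolve_left k).resolve_right (by simp)) h T hT
  ⟨F, h1, h2, h3, h4⟩

theorem good (S : Scene Lm) (j N : ℕ) (hS : S.OK) : ∀ᶠ T in 𝓝[<] (1 : ℝ), T < 1 ∧
    ∀ F : Fam S j N, F.OK T → F.X = ∅ → F.KitAt ∧ F.LensAt :=
  ev_lt.and (((H.kit S j N hS).and (H.lens S j N hS)).mono fun _ k F a b => ⟨k.1 F a b, k.2 F a b⟩)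

/-- two families have one generic value -/
theorem two (h : CN S d c) (hT : T < 1 ∧ ∀ F : Fam S j N, F.OK T → F.X = ∅ → F.KitAt ∧ F.LensAt)
    {F₀ F₁ : Fam S j N} {b₀ b₁ : Bool} (a₀ : F₀.OK T) (a₁ : F₁.OK T) (n₀ : F₀.n₀ = -d)
    (n₁ : F₁.n₀ = -d) (s₀ : F₀.Sub c (some b₀)) (s₁ : F₁.Sub c (some b₁)) :
    ∃ v, GV (fun q => F₀.val q c (some b₀) = v) ∧ GV fun q => F₁.val q c (some b₁) = v := by
  obtain ⟨P, e₀, e₁, h1, h2, h3, h4, h5, h6⟩ := H.join S j N d c T F₀ F₁ b₀ b₁ h hT.1 a₀ a₁ n₀ n₁ s₀ s₁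
  refine GV.prism h1 ((Fam.stokes h.ok h2 (hT.2 P h2 h3).1 (hT.2 P h2 h3).2 h5 (fun i σ k => by
    rw [h4, (h.cl.mem i σ k).2.1]; simp [sf]) h.cl.sym).mono fun q hq => ?_)
  rw [h.cl.bd, Fam.val_zero, Fam.xf_empty h3, if_pos rfl, zero_add, add_zero,
    CharTwo.add_eq_zero] at hq
  have k0 : F₀.val (rs e₀ q) c (some b₀) = P.val q c (some false) := sum_congr_ne c fun i σ k =>
    congrArg _ (H.cnt _ _ _ _ _ _ _ _ _ _ _ _ _ _ _ _ _ _ _ _ _ _ _ _ e₀ (a₀.ok i ⟨_, s₀ i σ k⟩)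
      (h2.ok i ⟨_, h5 i σ k⟩) (s₀ i σ k) (h2.soft (h5 i σ k) _) (h6 i σ k).1 q)
  have k1 : F₁.val (rs e₁ q) c (some b₁) = P.val q c (some true) := sum_congr_ne c fun i σ k =>
    congrArg _ (H.cnt _ _ _ _ _ _ _ _ _ _ _ _ _ _ _ _ _ _ _ _ _ _ _ _ e₁ (a₁.ok i ⟨_, s₁ i σ k⟩)
      (h2.ok i ⟨_, h5 i σ k⟩) (s₁ i σ k) (h2.soft (h5 i σ k) _) (h6 i σ k).2 q)
  rw [k0, k1, hq]

/-- a family over a good closed chain -/
theorem fam_cn (h : CN S d c) (i₀ : S.L) (hT : T < 1) :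
    ∃ F : Fam S j N, F.OK T ∧ F.X = ∅ ∧ F.n₀ = -d ∧ F.Sub c (some false) :=
  H.fam h.ok i₀ _ (fun i σ => c i σ ≠ 0) (fun i σ k => ⟨(h.cl.mem i σ k).1, h.ns i σ k,
    hard_of h.cl.toSf k _, by rw [(h.cl.mem i σ k).2.1]; omega⟩) hT

/-- **EVAL** -/
theorem eval : EvalStmt Lm := fun S j N d c h => (H.good S j N h.ok).mono fun T hT F a n b s => by
  by_cases h0 : c = 0
  · exact gv_of fun q => by rw [ZN, if_neg fun k => k.1 h0, h0, Fam.val_zero]
  obtain ⟨v, hv, -⟩ := H.two h hT a a n n s s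
  have key : ∀ᶠ T' in 𝓝[<] (1 : ℝ), ∀ F' : Fam S j N, F'.OK T' → F'.n₀ = -d →
      F'.Sub c (some false) → GV fun q => F'.val q c (some false) = v :=
    (ev_ge hT.1).mono fun T' k F' a' n' s' =>
      let ⟨_, h1, h2⟩ := H.two h hT a (a'.mono k.1) n n' s s'; (hv.uniq h1).symm ▸ h2
  suffices e : ZN S j N d c = v from e ▸ hv
  rw [ZN]
  split_ifs with k
  · obtain ⟨T', k1, k2, k3⟩ := (k.2.and (key.and ev_lt)).exists
    obtain ⟨F', a', x', n', s'⟩ := H.fam_cn (j := j) (N := N) h (ne_iff.1 h0).choose k3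
    exact (k1 F' a' x' n' s').uniq (k2 F' a' n' s')
  · exact ((z2 v).resolve_right fun e => k ⟨h0, key.mono fun _ k F' a' _ => e ▸ k F' a'⟩).symm

theorem add (h : CN S d c) (h' : CN S d c') : ZN S j N d (c + c') = ZN S j N d c + ZN S j N d c' := by
  rcases isEmpty_or_nonempty S.L with k | ⟨⟨i₀⟩⟩
  · simp [ZN, Subsingleton.elim c 0, Subsingleton.elim c' 0]
  obtain ⟨T, k1, k2, k3, k4⟩ := ((H.eval S j N d c h).and ((H.eval S j N d c' h').and
    ((H.eval S j N d _ (cn_add h h')).and ev_lt))).exists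
  obtain ⟨F, a, -, n, s⟩ := H.fam (j := j) (N := N) h.ok i₀ (-d) (fun i σ => c i σ ≠ 0 ∨ c' i σ ≠ 0)
    (fun i σ k => k.elim
      (fun k => ⟨(h.cl.mem i σ k).1, h.ns i σ k, hard_of h.cl.toSf k _,
        by rw [(h.cl.mem i σ k).2.1]; omega⟩)
      fun k => ⟨(h'.cl.mem i σ k).1, h'.ns i σ k, hard_of h'.cl.toSf k _,
        by rw [(h'.cl.mem i σ k).2.1]; omega⟩) k4
  obtain ⟨q, e1, e2, e3⟩ := ((k1 F a n _ fun i σ k => s i σ (.inl k)).and
    ((k2 F a n _ fun i σ k => s i σ (.inr k)).and (k3 F a n _ fun i σ k => s i σ (ne_add k)))).ex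
  rw [← e1, ← e2, ← e3, Fam.val_add]

theorem stk {e : Cn S.L S.A} (h1 : S.Sf (d + 1) e) (h2 : NS S e) (h : CN S d e.bd) :
    ZN S j N d e.bd = 0 := by
  by_cases h0 : e.bd = 0
  · exact if_neg fun k => k.1 h0
  obtain ⟨T, k1, k2⟩ := ((H.eval S j N d _ h).and (H.good S j N h.ok)).exists
  obtain ⟨F, a, x, n, s⟩ := H.fam (j := j) (N := N) h.ok (ne_iff.1 h0).choose (-d)
    (fun i σ => e i σ ≠ 0) (fun i σ k => ⟨(h1.mem i σ k).1, h2 i σ k, hard_of h1 k _,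
      by rw [(h1.mem i σ k).2.1]; omega⟩) k2.1
  have s' : F.Sub e.bd (some false) := fun i τ k => by
    obtain ⟨x, -, h4⟩ := Finset.exists_ne_zero_of_sum_ne_zero k
    exact a.sub (s i _ h4) (Finset.subset_insert _ _)
  obtain ⟨q, e1, e2⟩ := ((k1 F a n _ s').and (Fam.stokes h.ok a (k2.2 F a x).1 (k2.2 F a x).2 s
    (fun i σ k => by rw [n, (h1.mem i σ k).2.1]; simp [sf]) h1.sym)).ex
  rw [Fam.xf_empty x] at e2
  rw [← e1]; simpa using e2

theorem nat (hN : NatStmt Lm) {S' : Scene Lm} (m : Mt S S' univ) (c : Cn m.L₀ m.A₀) (hm : m.I.Glob)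
    (h : CN S d (m.l ∅ c)) (h' : CN S' d (m.r c)) : ZN S j N d (m.l ∅ c) = ZN S' j N d (m.r c) := by
  obtain ⟨T, k1, k2, k3⟩ := ((H.eval S j N d _ h).and ((H.eval S' j N d _ h').and ev_lt)).exists
  obtain ⟨F, F', e, a, a', n, n', s, s', r⟩ := hN S S' m j N d c hm h h' T k3
  obtain ⟨q, e1, e2⟩ := ((Nd18.GV.comap (k1 F a n _ s) e).and (k2 F' a' n' _ s')).ex
  rw [← e1, ← e2, Fam.val_pj, Fam.val_pj]
  refine sum_congr_ne c fun i σ k => ?_
  have t := s _ _ ((pj_apply m.ι m.I.f c i σ).trans_ne k)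
  have t' := s' _ _ ((pj_apply m.ι' m.I.f' c i σ).trans_ne k)
  rw [Finset.union_empty, Finset.union_empty]
  exact congrArg _ (H.cnt _ _ _ _ _ _ _ _ _ _ _ _ _ _ _ _ _ _ _ _ _ _ _ _ e (a.ok _ ⟨_, t⟩)
    (a'.ok _ ⟨_, t'⟩) t t' (r i σ k) q)

end Core

theorem ev_Z (S : Scene Lm) (j d : ℕ) (c : Cn S.L S.A) :
    ∀ᶠ N in (hyperfilter ℕ : Filter ℕ), ZN S j N d c = Z S j d c := by
  rw [Z]
  split_ifs with k
  exacts [k, (Ultrafilter.eventually_not.2 k).mono fun _ k => (z2 _).resolve_right k]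

theorem Z_eq {v : ZMod 2} (h : ∀ᶠ N in atTop, ZN S j N d c = v) : Z S j d c = v :=
  let ⟨_, h1, h2⟩ := ((ev_Z S j d c).and (h.filter_mono Nat.hyperfilter_le_atTop)).exists
  h1.symm.trans h2

/-- **INST** -/
theorem inst (T : Th Lm) (H : Core Lm) (hN : NatStmt Lm) (hR : RfStmt T) (hF : FactStmt T)
    (hV : NvStmt T) : AxB (th T) where
  add S j d c c' h h' :=
    let ⟨_, e1, e2, e3⟩ := ((ev_Z S j d c).and ((ev_Z S j d c').and (ev_Z S j d (c + c')))).exists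
    e3.symm.trans ((H.add h h').trans (congrArg₂ _ e1 e2))
  stk _ _ _ _ h1 h2 h := Z_eq (.of_forall fun _ => H.stk h1 h2 h)
  nat S S' m j d c hm h h' :=
    let ⟨_, e1, e2⟩ := ((ev_Z S j d _).and (ev_Z S' j d _)).exists
    e1.symm.trans ((H.nat hN m c hm h h').trans e2)
  rf S S' R e e' m R₀ j d c h1 h2 h3 h4 h5 h6 :=
    let ⟨N, e1, e2⟩ := ((ev_Z S j (d + 1) _).and (ev_Z S' j d _)).exists
    e1.symm.trans ((hR S S' R e e' m R₀ j N d c h1 h2 h3 h4 h5 h6).trans e2)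
  fact y := (hF y).imp fun _ k S j d c h1 h2 => Z_eq (k S j d c h1 h2)
  nv S i h1 h2 := (hV S i h1 h2).imp fun _ k e => one_ne_zero ((Z_eq k).symm.trans e)

end Crest.Agent.X212.Ins26
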