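import Crest.Agent.X212.Ins26.NvA
import Crest.Agent.X212.Wrd81.Psh
import Crest.Agent.X212.Brn93.Defs
import Crest.Agent.X212.Nat75.Tp

/-!
# Row 212, INST-NV (helper26): normal forms and transport of terms; the count of a point
-/

set_option autoImplicit false
set_option linter.unusedSectionVars false
noncomputable section
open scoped Manifold ContDiff Topology InnerProductSpace
open MeasureTheory Set Function Filter

namespace Crest.Agent.X212.Ins26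
open An Eq82 Wrd81 M

section syn
variable {E : Type} [NormedAddCommGroup E] [NormedSpace ℝ E] [FiniteDimensional ℝ E]
  [MeasurableSpace E] [BorelSpace E]
  {HM : Type} [TopologicalSpace HM] {I : ModelWithCorners ℝ E HM} [I.Boundaryless]
  {M : Type} [TopologicalSpace M] [ChartedSpace HM M] [IsManifold I ∞ M]
  [MeasurableSpace M] [BorelSpace M] [SecondCountableTopology M] [T2Space M]
  {ι : Type} [Fintype ι] {lam : Type} [Fintype lam] {r n : ℕ} {B : Base M ι lam} {F : Fr I M ι}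
  {T : Tm M lam r n}

/-- the normal form of a term -/
def nf : Tm M lam r n → Tm M lam r n
  | .lin u => .lin (.mul 1 :: u)
  | .ad g h ξ => .ad g h ⟨ξ.s, .mul 1 :: ξ.l⟩
  | T => T

theorem nf_bas (h : Vz T) : Bas (nf T) := by
  cases T
  exacts [trivial, trivial, ⟨_, _, rfl⟩, trivial, h, trivial, trivial]

theorem tmP_nf : tmP B F (nf T) = tmP B F T := by
  cases T <;> simp [nf, tmP, Cfg.tD, Cfg.tC, Cfg.tS, Cfg.sw, Cfg.aw, wd, Cfg.lt, Cfg.la]

section cpt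
variable [CompactSpace M]

theorem tf_of {f : M → ℝ} (h : Sm I f) : Tf I univ f := ⟨h, .of_compactSpace _, subset_univ _⟩

theorem sw_in {u : SW M} (h : u.OK F) : SwIn I univ u := fun t ht => by
  have := h t ht
  cases t
  exacts [tf_of (Prm93.Cb.sm this), tf_of this.1, trivial, trivial]

theorem ll_in {l : List (La M)} (h : ∀ t ∈ l, La.OK F t) : LlIn I univ l := fun t ht => by
  have := h t ht
  cases t
  exacts [tf_of (Prm93.Cb.sm this), trivial]

theorem aw_in {ξ : AW M} (h : ξ.OK F) : AwIn I univ ξ := by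
  obtain ⟨s, l⟩ := ξ
  refine ⟨?_, ll_in h.2⟩
  cases s
  exacts [⟨sw_in h.1.1, sw_in h.1.2⟩, ⟨tf_of (Prm93.Cb.sm h.1.1), tf_of h.1.2.1.1, tf_of h.1.2.2.1⟩]

theorem sg_in {g : Sg M lam} (h : g.OK F) : SgIn I univ g :=
  ⟨⟨h.1, h.2.1, subset_univ _⟩, sw_in h.2.2.1, sw_in h.2.2.2⟩

theorem co_in {d : Co M lam r} (h : d.OK F) : CoIn I univ d := by
  cases d
  exacts [trivial, ⟨sg_in h.1, fun g k => sg_in (h.2 g k)⟩]

theorem nf_in (h : T.OK F) : TmIn I univ (nf T) := by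
  have o : Tf I univ (1 : M → ℝ) := tf_of contMDiff_const
  have s : ∀ {s : M → Eu lam}, F.Cb s → Tv I univ s := fun k =>
    ⟨Prm93.Cb.sm k, .of_compactSpace _, subset_univ _⟩
  cases T
  exacts [⟨(sw_in h).cons o, _, _, rfl⟩, ⟨co_in h.1, s h.2.1, sw_in h.2.2⟩,
    ⟨tf_of h.1.1, tf_of h.2.1.1, (aw_in h.2.2).1, (aw_in h.2.2).2.cons o⟩,
    ⟨co_in h.1, s h.2.1, tf_of h.2.2.1.1, tf_of h.2.2.2.1.1, sw_in h.2.2.2.2.1, sw_in h.2.2.2.2.2.1,
      ll_in h.2.2.2.2.2.2⟩,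
    ⟨tf_of (Prm93.Cb.sm h.1), tf_of h.2.1.1, tf_of h.2.2.1.1, h.2.2.2.1, h.2.2.2.2.1,
      fun ξ k => aw_in (h.2.2.2.2.2 ξ k)⟩, sg_in h, trivial]

theorem int_kd {G : Geo I M ι lam} (hB : B.OK I) (hG : G.OK B) {c : Cfg M ι lam r}
    (h : c.Adm B G) : Integrable (c.m.kd B G.F c.W) G.F.μ := by
  have := G.F.fin
  have f := (Mp86.sm_Fg hB hG h.ok h.conn).continuous
  refine Mp86.integ_of_cont (continuous_const.mul ?_)
  simp only [PiLp.inner_apply, Wz78.idx_apply, ContinuousLinearMap.id_apply]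
  have f' : ∀ s, Continuous fun x => c.m.Fg G.F c.W x s := fun s =>
    (PiLp.proj 2 (fun _ : ι × ι => c.m.A) s : CL _ _).continuous.comp f
  exact continuous_finsetSum _ fun s _ => (f' s).inner (continuous_finsetSum _ fun t _ =>
    ((hB.so _ _ _ _).continuous.div_const 2).smul (f' t))

end cpt

variable {E' : Type} [NormedAddCommGroup E'] [NormedSpace ℝ E'] [FiniteDimensional ℝ E']
  [MeasurableSpace E'] [BorelSpace E']
  {HM' : Type} [TopologicalSpace HM'] {I' : ModelWithCorners ℝ E' HM'} [I'.Boundaryless]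
  {M' : Type} [TopologicalSpace M'] [ChartedSpace HM' M'] [IsManifold I' ∞ M']
  [MeasurableSpace M'] [BorelSpace M'] [SecondCountableTopology M'] [T2Space M']
  {lam' : Type} [Fintype lam'] {t : Tp M' M lam' lam} {t' : Tp M M' lam lam'} {Ω : Set M}
  {Ω' : Set M'}

/-- back and forth -/
theorem inv_peq (h : Inv I' I t t' Ω' Ω B.l) (hT : TmIn I Ω T) :
    PEq I B (tmP B F (t.tm (t'.tm T))) (tmP B F T) := fun c hc => by
  have hj := hc.jl
  have co : ∀ {d : Co M lam r}, CoIn I Ω d → c.co F (t.co (t'.co d)) = c.co F d := fun {d} k => by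
    cases d with
    | z => rfl
    | s g L =>
      simp only [Tp.co, Cfg.co, h.sg' hj F k.1, List.map_map]
      rw [List.map_congr_left (f := (fun g' => ‖c.sg F g'‖ ^ 2) ∘ t.sg ∘ t'.sg)
        (g := fun g' => ‖c.sg F g'‖ ^ 2) fun g hg => by simp only [comp, h.sg' hj F (k.2 g hg)]]
  cases T with
  | lin => simp only [Tp.tm, h.sw' hT.1, and_self]
  | anti => simp only [tmP, Tp.tm, Cfg.tD, Cfg.tC, Cfg.tS, h.sw' hT.2.2, h.ts _ hT.2.1, co hT.1, hj,
      and_self]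
  | ad => simp only [Tp.tm, h.tf _ hT.1, h.tf _ hT.2.1, h.aw' hT.2.2, and_self]
  | adj d s g g' u v l =>
    have e : c.qj F (t.co (t'.co d)) (fun y => B.l y (s y)) u v = c.qj F d s u v :=
      funext fun x => by simp only [Cfg.qj, hj, co hT.1]
    simp only [tmP, Tp.tm, Cfg.tD, Cfg.tC, Cfg.tS, h.ts _ hT.2.1, h.tf _ hT.2.2.1, h.tf _ hT.2.2.2.1,
      h.sw' hT.2.2.2.2.1, h.sw' hT.2.2.2.2.2.1, h.ll' hT.2.2.2.2.2.2, e, and_self]
  | adn f g g' φ L =>
    have e : (L.map t'.aw).map t.aw = L := by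
      rw [List.map_map]
      exact (List.map_congr_left fun ξ k => h.aw' (hT.2.2.2.2.2 ξ k)).trans (List.map_id L)
    simp only [Tp.tm, h.tf _ hT.1, h.tf _ hT.2.1, h.tf _ hT.2.2.1, e, and_self]
  | cut => simp only [tmP, Tp.tm, Cfg.tD, Cfg.tC, Cfg.tS, h.sg' hj F hT, and_self]
  | cz => exact ⟨rfl, rfl, rfl⟩

end syn

variable {Wi : Type} {X : Mf 4} {A κ lam : Type} [Fintype A] [Fintype κ] [DecidableEq (Option κ)]
  [Fintype lam] [DecidableEq lam] {M : Mark X A κ} {W : World M} {N : ML M lam} {Λ : Lns W N}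
  {A' h : Type} [Fintype A'] [DecidableEq A'] [Fintype h] {r n : ℕ} {J : Job Wi Λ A' h r n}

/-- the object of a configuration -/
def ob0 [IsEmpty h] (s : A' → ℝ) (x : Cfg (W.Z M.c0).M (Option κ) (lam ⊕ lam) r) : J.Obc M.c0 :=
  ⟨s, x, ∅, isEmptyElim, fun _ _ => ⟨⟨0, 0, 0, 0, 0⟩, 0, 0, 0⟩, 1, 0, 0, 0⟩

/-- **the count of a point without cuts** -/
theorem z_pt [IsEmpty h] {σ : Cel A'} {s : A' → ℝ} (hs : Job.cl σ = {s})
    (h0 : Sys.inf (J.Θ s).2 = ∅) (hO : J.Θ s ∈ M.O M.c0.1) (q : Wi →₀ ℝ) :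
    J.z q σ = cntU (J.B M.c0) (J.G M.c0 s) (J.τ M.c0 q s) J.k fun _ => True := by
  have hB := Λ.B_ok J.m M.c0
  have hG := Λ.G_ok J.m hO
  have e : ∀ y : J.TS σ q M.c0, y.1.s = s := fun y => mem_singleton_iff.1 (hs.le y.2.1.cell)
  have w : cylW M.c0 = ∅ := eq_empty_of_forall_notMem fun _ k => k.1
  have f : ∀ y : J.TS σ q M.c0, y.1.x.Sol (J.B M.c0) (J.G M.c0 s) (J.τ M.c0 q s) ∧
      y.1.x.kap (J.B M.c0) (J.G M.c0 s) = J.k ∧ True := fun y => by
    have h1 := y.2.1.sol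
    have h2 := y.2.1.lev
    rw [e y] at h1 h2
    rw [w, y.2.2.1] at h2
    exact ⟨h1, by simpa using h2, trivial⟩
  have g : ∀ x : Cfg (W.Z M.c0).M (Option κ) (lam ⊕ lam) r,
      x.Sol (J.B M.c0) (J.G M.c0 s) (J.τ M.c0 q s) → x.kap (J.B M.c0) (J.G M.c0 s) = J.k →
      Job.Sol σ q (ob0 (J := J) s x) ∧ (ob0 (J := J) s x).Tight := fun x a b =>
    ⟨⟨hs.ge rfl, h0, a, empty_subset _, isEmptyElim, by rw [eq_empty_of_isEmpty (_ \ _)]; simp,
      fun _ _ k => k.2.2.2.elim, fun _ k => k.1.elim, fun _ k => k.1.elim, int_kd hB hG a.toAdm,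
      by rw [w, ← b]; simp [ob0]⟩, rfl, fun _ k => k.1.elim⟩
  refine Nat.card_congr ⟨Quot.map (fun y => ⟨y.1.x, f y⟩) ?_,
    Quot.map (fun c => ⟨ob0 s c.1, g _ c.2.1 c.2.2.1⟩) ?_, ?_, ?_⟩
  · rintro y y' ⟨-, u, ζ, k, -⟩
    rw [e y] at k
    exact ⟨u, ζ, k⟩
  · rintro c c' ⟨u, ζ, k⟩
    exact ⟨rfl, u, ζ, k, fun i => isEmptyElim i.1⟩
  · rintro ⟨y⟩
    obtain ⟨u, ζ, k⟩ := iso_refl hB hG (f y).1.toAdm
    exact Quot.sound ⟨(e y).symm, u, ζ, k, fun i => isEmptyElim i.1⟩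
  · rintro ⟨c⟩
    rfl

end Crest.Agent.X212.Ins26
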