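import Crest.Agent.X212.Ins26.NvB
import Crest.Agent.X212.Ins26.NvC
import Crest.Agent.X212.Ins26.D0
import Crest.Agent.X212.Ins26.Main
import Crest.Agent.X212.Jb7.Ex
import Crest.Agent.X212.Wrd81.Jb

/-!
# Row 212, INST-NV (helper26): the leaf `NvStmt`
-/

set_option autoImplicit false
set_option linter.unusedSectionVars false
noncomputable section
open scoped Manifold ContDiff Topology
open Set Function Filter

namespace Crest.Agent.X212.Ins26
open An M G75 Jb7 Wrd81 Brn93 Dr59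
open Br55 (NC CN)
open Line51 (Ln)

variable {κ lam : Type} [Fintype κ] [DecidableEq (Option κ)] [Fintype lam] [DecidableEq lam]
  {Lm : LM κ lam} {S : Scene Lm} {r n j N : ℕ}

theorem src0 (W : World S.M) : (W.φ S.M.c0).source = univ :=
  (W.src _).trans (by simp [Sys.cores, Mark.c0])

theorem bij0 (W : World S.M) : Bijective (W.φ S.M.c0) :=
  ⟨PartialEquiv.injective_of_source_eq_univ _ (src0 W), PartialEquiv.surjective_of_target_eq_univ _
    ((W.tgt _).trans (eq_univ_of_forall fun _ _ h => h.elim))⟩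

theorem br0 : (0 : Prm S.A) ∈ S.M.Br S.M.c0.1 :=
  Mark.mem_Br_c0 ⟨fun _ => ⟨le_rfl, zero_le_one⟩, by simp [Sys.Cell]⟩

theorem ld0 (W : World S.M) : IsLocalDiffeomorph S.X.I (W.Z S.M.c0).I ∞ (W.φ S.M.c0) := fun _ =>
  (W.φ S.M.c0).isLocalDiffeomorphAt _ _ _ ((src0 W).ge trivial)

theorem conn0 (W : World S.M) : ConnectedSpace (W.Z S.M.c0).M :=
  have := S.M.con
  (bij0 W).2.connectedSpace (ld0 W).contMDiff.continuous

/-- the two indices at level zero agree -/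
theorem d0_bk {W : World S.M} {i : S.L} (Λ : Lns W (S.N i)) :
    (bk W S.M.c0 0).d0 (ln Λ S.M.c0 0) = d0 S i := by
  have := S.M.cpt
  have := conn0 W
  obtain ⟨β, sg, l2, h⟩ := exists_nb_univ i
  obtain ⟨_, _, _, _, _, k, -⟩ := id h
  let f := (ld0 W).diffeomorphOfBijective (bij0 W)
  have p : Int54.SameOn S.M.o (pm S.X.I (W.Z S.M.c0).I f (W.o S.M.c0)) univ := src0 W ▸ W.oφ S.M.c0
  have o : Int54.SameOn (Num57.vol (bk W S.M.c0 0).F (bk W S.M.c0 0).o) (W.o S.M.c0) univ :=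
    (ok_ov (Lay.F_vol (W.L S.M.c0 S.M.c0) 0) (W.ori _)).2
  have r := (bk W S.M.c0 0).ok.ori
  have d : Module.finrank ℝ (W.Z S.M.c0).E = Module.finrank ℝ S.X.E := by rw [(W.Z _).dim, S.X.dim]
  have m : Mp S.X.I (W.Z S.M.c0).I univ univ f := .of_contMDiff f.contMDiff (mapsTo_univ _ _)
  have L := ln_on Λ S.M.c0 0
  have c := L.cl_F isOpen_univ
  have b := Num57.b_diffeo d (W.ori _) k.ori f p
  have e : m.st 2 c.cls = (Num57.cl_FL (i := i) isOpen_univ).cls := by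
    rw [Mp.st_cls, cls_eq]
    exact (Line51.Uni.ex_F isOpen_univ (src0 W ▸ (Λ.iso S.M.c0 S.M.c0 0 br0).toUni) (S.N i).ok
      (L.pull m)).congr fun x _ => by
        rw [Pi.sub_apply, Pi.sub_apply, ← L.F_pull isOpen_univ isOpen_univ m trivial]
  have q : (bk W S.M.c0 0).Q c.cls c.cls = ip S.X.I S.M.o (S.cu i) (S.cu i) := by
    rw [Eq82.Bk.Q, Num57.Q_ori r (W.ori _) o, ← Num57.Q_st d (W.ori _) k.ori m f.bijective p, e]
    rfl
  rw [d0_eq h, l2_eq h, (Num57.nb_eq h k).1, (Num57.nb_eq h k).2.1, ← k.bp, ← k.bm, b.1, b.2,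
    Eq82.Bk.d0, Num57.bp_ori r (W.ori _) o, Num57.bm_ori r (W.ori _) o, Num57.bb0,
    ← Num57.bb_diffeo f, Eq82.lcl, Eq82.cl2, dif_pos c]
  simp only [map_smul, LinearMap.smul_apply, smul_eq_mul, q, Num57.bb]
  push_cast
  ring

variable (S r n) in
/-- all terms -/
abbrev AT : Type := {T : Tm S.X.M (lam ⊕ lam) r n // TmIn S.X.I univ T ∧ Bas T}

variable (D : S.Dat) (i : S.L) {U : Type} (g : U → AT S (j + 1 + N) N) (T : ℝ)

/-- the standard family over a point -/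
abbrev ptF (j N : ℕ) : Fam S j N := exF S j N D ∅ S.M.c0 0 (fun i' => {σ | σ = ∅ ∧ i' = i}) T

/-- the family with all terms over a point -/
@[reducible] def nvF : Fam S j N :=
  { ptF D i T j N with
    Wi := AT S (j + 1 + N) N ⊕ U
    t := fun _ => ⟨fun w => (w.elim id g).1, 1, fun _ _ => c0, 0⟩ }

variable {i T}

theorem nvF_ok (hc : CutOK Lm) (h : CN S 0 (Cn.gen i ∅)) (h2 : S.ls = ∅) (hT : T < 1) :
    (nvF D i g T).OK T := by
  have : IsEmpty S.ls := ⟨fun l => by simpa [h2] using l.2⟩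
  have ne : Cn.gen i (∅ : Finset S.A) i ∅ ≠ 0 := by simp [Cn.gen]
  have hm : ∀ a ∈ hard S ∅, ¬S.M.pin a → a ∈ S.M.c0.1 := fun a ha k => by simp [hard, h2, k] at ha
  have hC : ∀ i', ∀ σ ∈ {σ | σ = ∅ ∧ i' = i}, σ ∈ S.K i' ∧ NC S i' σ ∧ ↑σ ⊆ hard S ∅ ∧
      (0 : ℤ) + σ.card ≤ 1 := by
    rintro _ _ ⟨rfl, rfl⟩
    exact ⟨(h.cl.mem _ _ ne).1, h.ns _ _ ne, by simp, by simp⟩
  have H := (exF_pre (j := j) (N := N) (D := D) h.ok (by simp) hm hC hT).sk h.ok hc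
  have E := exF_ok (j := j) (N := N) (D := D) h.ok (by simp) hm hC hT hc
  have ht : ∀ i' s τ a b, ((nvF D i g T).job i').HasT s τ := fun i' s τ a b =>
    ⟨.inl ⟨τ, a, b⟩, rfl, one_ne_zero, fun _ => rfl, fun _ => smul_zero _⟩
  refine ⟨E.Tf, fun i' _ => Job.put_ok ((H i').job _ _) ⟨fun w => ⟨univ, ?_, 1 / 2, by norm_num, ?_⟩,
    fun _ => contDiff_const, isEmptyElim, isEmptyElim⟩, fun i' _ => Job.put_loc ((H i').loc _ _)
      ⟨fun _ _ _ _ _ _ _ _ _ _ _ _ => isEmptyElim, fun _ _ _ _ _ _ _ _ _ _ _ _ _ => .inl rfl,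
        fun w => (w.elim id g).2.2⟩, E.cell, fun i' _ _ s _ _ _ => ⟨fun _ _ _ => ht _ _ _ trivial trivial,
      fun π _ => ⟨fun _ τ a b _ => ht _ _ _ (a.mono (subset_univ _)) b, isEmptyElim⟩⟩,
    fun _ _ _ _ _ => isEmptyElim, fun _ => isEmptyElim⟩
  · rw [sdiff_univ]
    simpa [Sys.cores] using (w.elim id g).2.1
  · rintro _ ⟨_, ⟨rfl, -⟩, τ, k, rfl⟩ s hs a _ _ _ e
    obtain rfl := Finset.subset_empty.1 k
    rw [hs.1 a false (by cases a <;> simp [cel])] at e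
    norm_num [b01] at e

/-- **LEAF NV** -/
theorem nv {T : Th Lm} (hT : ∀ S i, T.NV S i → Brn93.NV S i) (hc : CutOK Lm) (H : Core Lm) :
    NvStmt T := fun S i h0 h => by
  obtain ⟨h1, h2, D, j, ct⟩ := hT S i h0
  refine ⟨j, .of_forall fun N => ?_⟩
  have : IsEmpty S.ls := ⟨fun l => by simpa [h2] using l.2⟩
  have := conn0 D.W
  obtain ⟨T, k1, k2⟩ := ((H.eval S j N 0 _ h).and ev_lt).exists
  let J := ((ptF D i T j N).sk i).job (j + 1 + N) N
  obtain ⟨i1, i2⟩ := inv_tp (J := J) (c := S.M.c0) br0 (Ω := univ) (src0 D.W).ge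
  rw [image_univ, (bij0 D.W).2.range_eq] at i1
  have eB := bk_B (D.Λ i) S.M.c0 (zero_mem_O (M := S.M) ∅)
  let g : Eq82.WW (bk D.W S.M.c0 0) lam (j + 1 + N) N → AT S (j + 1 + N) N := fun u =>
    ⟨(tq S.M.c0 J).tm (nf u.1), i1.toIn.tm (nf_in u.2.1), Nat75.bas_tm (nf_bas u.2.2)⟩
  have hk : 6 * kz S i j 0 + (bk D.W S.M.c0 0).d0 (ln (D.Λ i) S.M.c0 0) + 2 * j = 0 := by
    rw [d0_bk, kz, h2]; push_cast; simp only [Finset.card_empty]; push_cast; ring
  obtain ⟨q, a, b⟩ := exists_dat (T := fun w : AT S _ N ⊕ _ => (J.tp S.M.c0).tm (w.elim id g).1)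
    (ln_on (D.Λ i) S.M.c0 0) (fun w => (i2.tm (w.elim id g).2.1).ok _) (by omega) (ct.neg hk)
    (by push_cast; linarith) .inr (fun u => by
      rw [← tmP_nf (T := u.1), eB]
      exact inv_peq i1 (nf_in u.2.1))
    (k1 (nvF D i g T) (nvF_ok D g hc h h2 k2) (by simp) false fun i' σ e => ⟨σ, by
      by_contra k
      rcases eq_or_ne i' i with rfl | l
      · simp [Cn.gen, show σ ≠ ∅ from fun l => k ⟨l, rfl⟩] at e
      · simp [Cn.gen, l] at e, σ, le_rfl, rfl⟩)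
  have e : ((nvF D i g T).job i).Θ 0 = 0 := Prod.ext rfl (funext fun x => by
    simp [Sk.Θ, thS, h1, rho])
  rw [← a, Fam.val_gen, z_pt (s := 0) _ (by rw [e]; simp [Sys.inf]) (by rw [e]; exact zero_mem_O ∅),
    Ink3.τ_nil _ _ (fun _ => Ink3.nd0_nil) fun _ _ => rfl]
  · have := (ct.odd hk b).natCast_zmod_two
    rw [sq, eB] at this
    unfold Ink3.τf Job.G
    rw [e]
    convert this using 4
    exact funext fun _ => Eq82.sml_one
  · refine eq_singleton_iff_unique_mem.2 ⟨⟨fun x b k => ?_, fun _ => ⟨le_rfl, zero_le_one⟩⟩,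
      fun s hs => funext fun x => hs.1 x false (by cases x <;> simp [cel])⟩
    obtain rfl : false = b := by cases x <;> simpa [cel] using k
    rfl

end Crest.Agent.X212.Ins26
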