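import Crest.Agent.X212.Mp86.Szl
import Crest.Agent.X212.An.Loc

/-!
# Row 212, INST-NV (helper26): sizes of finite combinations of terms on a closed manifold
-/

set_option autoImplicit false
set_option linter.unusedSectionVars false
noncomputable section
open scoped Manifold ContDiff Topology InnerProductSpace
open MeasureTheory Set Function Filter

namespace Crest.Agent.X212.Ins26
open An Mod61 Eq82 Wz78 Mp86
open Nd18 (fsum)

variable {E : Type} [NormedAddCommGroup E] [NormedSpace ℝ E] [FiniteDimensional ℝ E]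
  [MeasurableSpace E] [BorelSpace E]
  {HM : Type} [TopologicalSpace HM] {I : ModelWithCorners ℝ E HM} [I.Boundaryless]
  {M : Type} [TopologicalSpace M] [ChartedSpace HM M] [IsManifold I ∞ M]
  [MeasurableSpace M] [BorelSpace M] [SecondCountableTopology M] [T2Space M] [CompactSpace M]
  {ι : Type} [Fintype ι] {lam : Type} [Fintype lam] {r n : ℕ}
  {B : Base M ι lam} {G : Geo I M ι lam} {τ τ' : Pt M ι lam r n} {K K' ε ε' k : ℝ}
  {c : Cfg M ι lam r}

variable (B G τ K) in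
/-- the size of the Dirac part -/
def SzD : Prop := 0 ≤ K ∧ ∀ (c : Cfg M ι lam r) σ, c.Adm B G → c.Le G.F (fun _ _ => 1) σ →
  Ctl G.F (gr2 I G.F.e c.W c.Φ) σ K c.W (τ.D c)

variable (B G τ ε) in
/-- the size of the curvature part -/
def SzC : Prop := ∀ (c : Cfg M ι lam r) σ, c.Adm B G → c.Le G.F (fun _ _ => 1) σ →
  ∀ x, ‖τ.C c x‖ ≤ ε * σ

theorem SzD.mono (h : SzD B G τ K) (e : K ≤ K') : SzD B G τ K' :=
  ⟨h.1.trans e, fun c σ a b => (h.2 c σ a b).mono (by linarith [b.one]) (fun _ => gr2_nonneg) e⟩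

theorem SzC.mono (h : SzC B G τ ε) (e : ε ≤ ε') : SzC B G τ ε' := fun c σ a b x =>
  (h c σ a b x).trans (mul_le_mul_of_nonneg_right e (by linarith [b.one]))

theorem SzD.add (h : SzD B G τ K) (h' : SzD B G τ' K') : SzD B G (τ.add τ') (2 * K + 2 * K') :=
  ⟨by linarith [h.1, h'.1], fun c σ a b => (h.2 c σ a b).add (h'.2 c σ a b)⟩

theorem SzC.add (h : SzC B G τ ε) (h' : SzC B G τ' ε') : SzC B G (τ.add τ') (ε + ε') :=
  fun c σ a b x => (norm_add_le _ _).trans
    ((add_le_add (h c σ a b x) (h' c σ a b x)).trans_eq (add_mul _ _ _).symm)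

theorem SzD.sml (h : SzD B G τ K) (a : ℝ) : SzD B G (sml a τ) (4 * a ^ 2 * K) :=
  ⟨by have := h.1; positivity, fun c σ p b => (h.2 c σ p b).smul (by linarith [b.one])
    (fun _ => gr2_nonneg) h.1 (sq_nonneg _) (Fn.const a)⟩

theorem SzC.sml (h : SzC B G τ ε) (a : ℝ) : SzC B G (sml a τ) (|a| * ε) := fun c σ p b x =>
  (norm_smul _ _).trans_le ((mul_le_mul_of_nonneg_left (h c σ p b x) (abs_nonneg a)).trans_eq
    (mul_assoc _ _ _).symm)

theorem szC_bd (h : Bd B G τ ε) : SzC B G τ ε := fun c σ a b =>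
  h c (Mp86.adm0 a) (norm_z_le a) σ b.Φ

section sum
variable {W : Type} {T : W → Pt M ι lam r n} {b : W → ℝ} {q : W →₀ ℝ}

theorem szD_fsum (h : ∀ w, SzD B G (T w) (b w)) {J : Finset W} (hJ : q.support ⊆ J) :
    SzD B G (fsum T q) (2 ^ J.card * ∑ w ∈ J, 4 * q w ^ 2 * b w) :=
  ⟨mul_nonneg (by positivity) (Finset.sum_nonneg fun w _ => ((h w).sml _).1), fun c σ a k => by
    rw [show (fsum T q).D c = fun x => ∑ w ∈ J, q w • (T w).D c x from funext fun x =>
      Finsupp.sum_of_support_subset _ hJ (fun w a => a • (T w).D c x) fun _ _ => zero_smul _ _]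
    exact Ctl.sum J (by linarith [k.one]) (fun _ => gr2_nonneg) (fun w _ => ((h w).sml _).1)
      fun w _ => ((h w).sml (q w)).2 c σ a k⟩

theorem szC_fsum (h : ∀ w, SzC B G (T w) (b w)) :
    SzC B G (fsum T q) (q.sum fun w a => |a| * b w) := fun c σ a k x =>
  (norm_sum_le _ _).trans ((Finset.sum_le_sum fun w _ => (h w).sml (q w) c σ a k x).trans_eq
    (Finset.sum_mul _ _ _).symm)

/-- a uniform size along a convergent family -/
theorem szD_cv (h : ∀ w, SzD B G (T w) (b w)) {α : Type} {l : Filter α} {q : α → W →₀ ℝ}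
    {q₀ : W →₀ ℝ} (hq : St.Cv l q q₀) : ∃ K, ∀ᶠ i in l, SzD B G (fsum T (q i)) K := by
  classical
  obtain ⟨J, j1, j2⟩ := hq
  refine ⟨_, ((tendsto_finsetSum (J ∪ q₀.support) fun w _ =>
    (((j2 w).pow 2).const_mul 4).mul_const (b w)).const_mul
      (2 ^ (J ∪ q₀.support).card)).eventually_le_const (lt_add_one _) |>.mono fun i hi =>
        (szD_fsum h fun w hw => ?_).mono hi⟩
  by_contra hn
  rw [Finset.mem_union, not_or, Finsupp.notMem_support_iff] at hn
  exact Finsupp.mem_support_iff.1 hw ((j1 i w hn.1).trans hn.2)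

end sum

variable (hB : B.OK I) (hG : G.OK B)
include hB hG

/-- every term has a size -/
theorem sz_tm (hT : ∃ C, G.F.Tame C) {T : Tm M lam r n} (h : T.OK G.F) :
    ∃ b, SzD B G (tmP B G.F T) b ∧ SzC B G (tmP B G.F T) b := by
  obtain ⟨C, hC⟩ := hT
  obtain ⟨N, h1, h2⟩ := ((eventually_ge_atTop 1).and
    (((sf_const hB hG).un isCompact_singleton (subset_univ {0}) rfl).ev_tm h)).exists
  have w := wts_one ((l4_of_tame hC).mono (le_abs_self _)) (abs_nonneg _)
  refine ⟨max (64 * N * (4 * N) ^ N) (2 * |kC N (|C 0|)|), SzD.mono ⟨by positivity,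
    fun c σ a b => ctl_tD bumps_of_compact hB a h1 b.Φ (by linarith [b.one]) (h2 0 rfl)⟩
      (le_max_left _ _), SzC.mono (fun c σ a b x => (norm_tC w hB a h1 b (h2 0 rfl) x).trans ?_)
      (le_max_right _ _)⟩
  have e : qd T ≤ 1 := by cases T <;> simp [qd]
  have := mul_le_mul_of_nonneg_right e (zero_le_one.trans b.one)
  have := mul_nonneg (qd_nonneg T) (zero_le_one.trans b.one)
  nlinarith [le_abs_self (kC N (|C 0|)), abs_nonneg (kC N (|C 0|)), b.one]

/-- **the a priori bound** -/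
theorem apr : ∃ ε > (0 : ℝ), ∀ K k : ℝ, ∃ C, ∀ (τ : Pt M ι lam r n) (c : Cfg M ι lam r),
    SzD B G τ K → SzC B G τ ε → c.Sol B G τ → c.kap B G ≤ k → c.Le G.F (fun _ _ => 1) C := by
  obtain ⟨a, a0, a1⟩ := (sf_const hB hG).pscal isCompact_singleton (subset_univ {0})
  set v := √(3 * G.F.μ.real univ)
  have v0 : 0 ≤ v := Real.sqrt_nonneg _
  refine ⟨1 / (320 * (v + 1)), by positivity, fun K k => ⟨_, fun τ c h1 h2 h3 h4 =>
    c0_sol hB hG h3 (bd_of_sup h1.1 (by positivity) le_rfl h1.2 fun c σ p q x =>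
      (h2 c σ p q x).trans_eq (add_zero _).symm) v0 (Real.sqrt_nonneg (128 * Real.pi ^ 2 * |k|))
      (Real.sq_sqrt (by positivity)).ge ?_ (mul_one_div_cancel (by positivity)).le a0 (a1 0 rfl)⟩⟩
  rw [Real.sq_sqrt (by positivity)]
  exact mul_le_mul_of_nonneg_left (h4.trans (le_abs_self k)) (by positivity)

/-- below level zero there are no solutions with `Φ = 0` -/
theorem noI (hk : k < 0) : ∃ ε > (0 : ℝ), ∀ τ : Pt M ι lam r n, SzC B G τ ε → NoI B G τ k := by
  have := G.F.fin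
  set v := G.F.μ.real univ
  have v0 : 0 ≤ v := measureReal_nonneg
  have k0 : 0 < min 1 (-(128 * Real.pi ^ 2 * k)) := lt_min one_pos (by
    rw [← mul_neg]; exact mul_pos (by positivity) (neg_pos.2 hk))
  obtain ⟨ε, e1, e2⟩ := ((((by fun_prop : Continuous fun ε : ℝ => 4 * v * ε ^ 2).tendsto' 0 0
    (by simp)).eventually_lt_const k0).filter_mono (nhdsWithin_le_nhds (s := Ioi 0))).and
      self_mem_nhdsWithin |>.exists
  refine ⟨ε, e2, fun τ h c l a h1 h2 h3 => ?_⟩
  obtain ⟨i1, i2⟩ := integral_Fg_sq hB hG a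
  set A := ∫ x, ‖c.m.Fg G.F c.W x‖ ^ 2 ∂G.F.μ with hA
  have A0 : 0 ≤ A := integral_nonneg fun _ => sq_nonneg _
  have s : √(1 + A) ^ 2 = 1 + A := Real.sq_sqrt (by positivity)
  have le : c.Le G.F (fun _ _ => 1) √(1 + A) :=
    ⟨Real.one_le_sqrt.2 (by linarith), fun x => by simp [h2], (exists_le hB hG a).choose_spec.int,
      fun _ => by simp only [one_mul, s, ← hA]; linarith⟩
  have p : ∫ x, ‖c.m.p2 B x (c.m.Fg G.F c.W x)‖ ^ 2 ∂G.F.μ ≤ v * (2 * (ε ^ 2 * (1 + A))) := by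
    refine (integral_mono i1 (integrable_const (2 * (ε ^ 2 * (1 + A)))) fun x => ?_).trans_eq (by
      rw [integral_const, smul_eq_mul])
    have := SolOn.norm_p2_sq (O' := ∅) (O := univ) hB ⟨a, isOpen_empty, empty_subset _,
      fun _ e => e.elim, fun x _ => h3 x, fun x _ => congrFun h2 x⟩ (mem_univ x)
    have := pow_le_pow_left₀ (norm_nonneg _) (h c _ a le x) 2
    simp only [h2, Pi.zero_apply, norm_zero, mul_pow, s] at *
    linarith
  have := mul_nonneg (show 0 ≤ 128 * Real.pi ^ 2 by positivity) (Nat.cast_nonneg (α := ℝ) l)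
  rw [h1] at i2
  nlinarith [lt_min_iff.1 e1, mul_nonneg (sub_nonneg.2 (lt_min_iff.1 e1).1.le) A0]

omit hB hG

/-! ### perturbations with the same values -/

variable (I B τ τ') in
/-- equality on good modules -/
def PEq : Prop := ∀ c : Cfg M ι lam r, c.m.OK I B → τ.D c = τ'.D c ∧ τ.C c = τ'.C c ∧ τ.S c = τ'.S c

theorem PEq.symm (h : PEq I B τ τ') : PEq I B τ' τ := fun c a =>
  ⟨(h c a).1.symm, (h c a).2.1.symm, (h c a).2.2.symm⟩

theorem PEq.sol (h : PEq I B τ τ') (s : c.Sol B G τ) : c.Sol B G τ' :=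
  have e := h c s.ok
  ⟨s.toAdm, fun x => by rw [Cfg.eD, ← e.1]; exact s.D x, fun x => by rw [Cfg.eC, ← e.2.1]; exact s.C x,
    fun i => by rw [← e.2.2]; exact s.S i⟩

theorem PEq.rig (h : PEq I B τ τ') (a : c.m.OK I B) (s : Rig B G τ c) : Rig B G τ' c :=
  fun α φ w h1 h2 h3 h4 h5 h6 h7 h8 =>
    have e := fun t => h (var c α φ w t) a
    s α φ w h1 h2 h3 h4 h5
      (fun x => (funext fun t => by rw [vD, vD, Cfg.eD, Cfg.eD, (e t).1] :
        vD G τ' c α φ w x = vD G τ c α φ w x) ▸ h6 x)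
      (fun x p => (funext fun t => by rw [vC, vC, Cfg.eC, Cfg.eC, (e t).2.1] :
        vC B G τ' c α φ w x p = vC B G τ c α φ w x p) ▸ h7 x p)
      fun i => by simpa only [(e _).2.2] using h8 i

theorem PEq.good {U : Cfg M ι lam r → Prop} (h : PEq I B τ τ') (g : Good B G τ k U) :
    Good B G τ' k U :=
  ⟨fun c s a b => h.rig s.ok (g.rig c (h.symm.sol s) a b), fun c l a s => g.low c l a (h.symm.sol s)⟩

end Crest.Agent.X212.Ins26
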