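import Crest.Agent.X212.Ins26.NvA
import Crest.Agent.X212.Abel74.CmpL
import Crest.Agent.X212.Mod61.Mds
import Crest.Agent.X212.Eq82.Box
import Crest.Agent.X212.Met55.Path

/-!
# Row 212, INST-NV (helper26): small generic combinations of terms are admissible data
-/

set_option autoImplicit false
set_option linter.unusedSectionVars false
noncomputable section
open scoped Manifold ContDiff Topology InnerProductSpace
open MeasureTheory Set Function Filter

namespace Crest.Agent.X212.Ins26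
open An Mod61 Eq82 Wz78 Mp86 Abel74
open Nd18 (fsum)
open Line51 (Ln)

variable {E : Type} [NormedAddCommGroup E] [NormedSpace ℝ E] [FiniteDimensional ℝ E]
  [MeasurableSpace E] [BorelSpace E]
  {HM : Type} [TopologicalSpace HM] {I : ModelWithCorners ℝ E HM} [I.Boundaryless]
  {M : Type} [TopologicalSpace M] [ChartedSpace HM M] [IsManifold I ∞ M]
  [MeasurableSpace M] [BorelSpace M] [SecondCountableTopology M] [T2Space M] [CompactSpace M]
  {ι : Type} [Fintype ι] [DecidableEq ι] {κ : Type} [Fintype κ] [DecidableEq κ] {r n : ℕ}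
  {X : Bk I M ι} {L : Ln E M κ} {W : Type} {T : W → Tm M (κ ⊕ κ) r n} {k : ℝ}

variable (X L T) in
/-- `∑ q w • T w` -/
abbrev sq (q : W →₀ ℝ) : Pt M ι (κ ⊕ κ) r n := fsum (fun w => tmP (X.B L) X.F (T w)) q

theorem sml_sq (a : ℝ) (q : W →₀ ℝ) :
    sml a (sq X L T q) = fpt (X.B L) X.F q.support T fun w => a * q w :=
  pt_ext (fun c x => by simp [sml, fsum, fpt, tmP, Finsupp.sum, Finset.smul_sum, smul_smul])
    (fun c x => by simp [sml, fsum, fpt, tmP, Finsupp.sum, Finset.smul_sum, smul_smul])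
    fun c x => by simp [sml, fsum, fpt, tmP, Finsupp.sum, Finset.mul_sum, mul_assoc]

theorem sq_wpt (q : W →₀ ℝ) :
    sq X L T q = wpt (X.B L) X.F (fun w : q.support => T w) fun w => q w :=
  pt_ext (fun _ _ => (Finset.sum_coe_sort _ _).symm) (fun _ _ => (Finset.sum_coe_sort _ _).symm)
    fun _ _ => (Finset.sum_coe_sort _ _).symm

variable [ConnectedSpace M] (hL : L.On I univ) (hT : ∀ w, (T w).OK X.F) {P : Pa X L}
  (hP : ∀ t, P.F t = X.F)
include hL hT hP

theorem mds_sq (hr : 0 < r) (q : W →₀ ℝ) : Mds P fun t => sml (1 - t) (sq X L T q) := by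
  rw [sq_wpt]
  refine mds_sml hL P hr (fun a => ?_) fun t => hP t ▸ Eqv71.wpt_nat (G := L.geo X.F) P.hB
    (hP t ▸ P.hG t) isClopen_univ bumps_of_compact (fun w : q.support => hT w) _
  have := Mon62.sm_compact (m := 1) P.ok a.1 (Tm := fun w : q.support => T w)
    (fun w => tm_fr _ (hT w)) (w := fun _ w => q w) fun _ => contDiffOn_const
  unfold Mon62.wptX at this
  simp only [P.B, P.G, Ln.geo, hP] at this
  exact this

theorem cmp_sq : ∃ e > (0 : ℝ), ∀ q K, SzD (X.B L) (L.geo X.F) (sq X L T q) K →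
    SzC (X.B L) (L.geo X.F) (sq X L T q) e → Cmp P (fun t => sml (1 - t) (sq X L T q)) e False := by
  classical
  have hB := P.hB
  have hG : (L.geo X.F).OK (X.B L) := hP 0 ▸ P.hG 0
  have tm : ∃ C, (L.geo X.F).F.Tame C := hP 0 ▸ pa_tame P 0
  obtain ⟨ε, ε0, hε⟩ := apr (r := r) (n := n) hB hG
  choose b hb using fun u : WW X κ r n => sz_tm hB hG tm u.2.1
  refine ⟨ε / 2, half_pos ε0, fun q K h1 h2 => ?_⟩
  have key : ∀ {α : Type} {l : Filter α} (t : α → ℝ) {p : α → WW X κ r n →₀ ℝ} {p₀}, St.Cv l p p₀ →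
      ∀ k, ∃ C, ∀ᶠ i in l, t i ∈ Icc (0 : ℝ) 1 →
        Bd (X.B L) (L.geo X.F) (wq (X.B L) X.F (p i)) (ε / 2) → ∀ c : Cfg M ι (κ ⊕ κ) r,
        c.Sol (X.B L) (L.geo X.F) (pq X L X.F (sml (1 - t i) (sq X L T q)) (p i)) →
        c.kap (X.B L) (L.geo X.F) ≤ k → c.Le X.F (fun _ _ => 1) C ∧
          ∀ x, ‖(pq X L X.F (sml (1 - t i) (sq X L T q)) (p i)).C c x‖ ≤ ε * C := by
    intro α l t p p₀ hp k
    obtain ⟨K', hK⟩ := szD_cv (fun u => (hb u).1) hp
    obtain ⟨C, hC⟩ := hε (2 * (4 * 1 * K) + 2 * K') k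
    refine ⟨C, hK.mono fun i hi ht a c s e => ?_⟩
    have u : |1 - t i| ≤ 1 := abs_le.2 ⟨by linarith [ht.2], by linarith [ht.1]⟩
    have z := (((h2.sml (1 - t i)).mono (mul_le_of_le_one_left (half_pos ε0).le u)).add
      (szC_bd a)).mono (add_halves ε).le
    have := hC _ c (((h1.sml (1 - t i)).mono (mul_le_mul_of_nonneg_right (mul_le_mul_of_nonneg_left
      ((sq_le_one_iff_abs_le_one _).2 u) (by norm_num)) h1.1)).add hi) z s e
    exact ⟨this, z c C s.toAdm this⟩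
  obtain ⟨x₀⟩ : Nonempty M := inferInstance
  refine ⟨fun α l t t₀ p p₀ _ hp => ?_, fun α 𝒰 t t₀ p p₀ c k ht hp h => ?_⟩
  · obtain ⟨C, hC⟩ := key t hp 0
    simp only [hP]
    refine ⟨2 * C ^ 2 / (128 * Real.pi ^ 2), hC.mono fun i hi a1 a2 c s => ?_⟩
    rcases le_total 0 (c.kap (X.B L) (L.geo X.F)) with e | e
    · exact (neg_nonpos.2 (by positivity)).trans e
    have h3 := (hi a1 a2 c s e).1
    obtain ⟨i1, i2⟩ := integral_Fg_sq hB hG s.toAdm
    have h4 := integral_mono i1 (h3.int x₀) fun x => by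
      simp only [one_mul]
      exact pow_le_pow_left₀ (norm_nonneg _) (norm_p2 hB c.m x _) 2
    have h5 := (integral_nonneg fun _ => sq_nonneg _).trans_eq i2
    rw [← neg_div, div_le_iff₀ (by positivity)]
    linarith [h4.trans (h3.F x₀)]
  obtain ⟨C, hC⟩ := key t hp k
  obtain ⟨S, hS⟩ := tm
  obtain ⟨e, he, g⟩ := exists_reindex (h.and hC)
  have te : Tendsto e 𝒰 𝒰 := tendsto_id.congr' (EventuallyEq.symm he)
  obtain ⟨J, j1, j2⟩ := hp
  have sp : ∀ i, (p i).support ⊆ J ∪ p₀.support := fun i T hT => by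
    by_contra hn
    rw [Finset.mem_union, not_or, Finsupp.notMem_support_iff] at hn
    exact Finsupp.mem_support_iff.1 hT ((j1 i T hn.1).trans hn.2)
  simp only [hP] at g
  have a := fun i => (g i).2 (g i).1.1 (g i).1.2.1 _ (g i).1.2.2.1 (g i).1.2.2.2.le
  have C1 : 1 ≤ C := let ⟨i, _⟩ := he.exists; (a i).1.one
  have := Cc.reindex (P := P) (c := c) (t := t) he (comp_all (k := k) (S := |S 0|)
    (C := (6 + 2 * ε) * C ^ 2) (J := q.support) (J' := J ∪ p₀.support) hL (ht.comp te)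
    (ifc fun hg => hg.core fun _ ha => Pat85.ga hg ha (E' := EuclideanSpace ℝ (Fin 4))
      (Pat85.cvxOn_compact (ContinuousLinearEquiv.ofFinrankEq (by rw [hg.h4]; simp)) isCompact_univ)
      (by simp)) hT (fun u : WW X κ r n => u.2.1) (a := fun i w => (1 - t (e i)) * q w)
    (a' := fun i => p (e i)) (a₀ := fun w => (1 - t₀) * q w) (a₀' := p₀)
    (fun w => ((ht.comp te).const_sub 1).mul_const _) (fun u => (j2 u).comp te)
    (fun i => (g i).1.1) (fun i => ?_) (fun i => ?_) (abs_nonneg _) (fun i => ?_) (fun i x => ?_)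
    (fun i x => ?_) fun i => ?_)
  · rw [Cc, ← wq_fpt _ _ (Finset.subset_union_right (s₁ := J))] at this
    simp only [hP, ← sml_sq] at this ⊢
    exact this.imp fun _ => Exists.imp fun _ z => ⟨z.1, z.2.1, z.2.2.1, False.elim⟩
  · simp only [hP, ← sml_sq, ← wq_fpt _ _ (sp _)]
    exact (g i).1.2.2.1
  · simp only [hP]
    exact (g i).1.2.2.2
  · simp only [hP]
    exact (l4_of_tame hS).mono (le_abs_self _)
  · exact ((a i).1.Φ x).trans (by nlinarith [sq_nonneg C])
  · simp only [hP]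
    refine (abs_le_of_sq_le_sq' (b := (6 + 2 * ε) * C) (((solOn_of_sol (g i).1.2.2.1).norm_p2_sq hB
      (mem_univ x)).trans ?_) (by positivity)).2.trans (by nlinarith [mul_pos ε0 (by linarith : 0 < C)])
    nlinarith [pow_le_pow_left₀ (sq_nonneg _) ((a i).1.Φ x) 2,
      pow_le_pow_left₀ (norm_nonneg _) ((a i).2 x) 2, mul_pos ε0 (pow_pos (by linarith : 0 < C) 2),
      sq_nonneg (ε * C)]
  · simp only [hP]
    have := (a i).1.F x₀
    simp only [one_mul] at this
    exact this.trans (by nlinarith [sq_nonneg C])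

omit hP in
/-- **generic small combinations are admissible data** -/
theorem exists_dat (hr : 0 < r) (k0 : k < 0) (hk : 6 * k + X.d0 L + 2 * r - 2 * n - 2 = 0)
    (e : WW X κ r n ↪ W)
    (he : ∀ u, PEq I (X.B L) (tmP (X.B L) X.F (T (e u))) (tmP (X.B L) X.F u.1))
    {p : (W →₀ ℝ) → Prop} (hp : GV p) : ∃ q, p q ∧ Dat X L (sq X L T q) k := by
  classical
  obtain ⟨P, hP⟩ := Met55.exists_pa_const hL X.pos_self
  have hB := P.hB
  have hG : (L.geo X.F).OK (X.B L) := hP 0 ▸ P.hG 0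
  obtain ⟨e₁, a1, h1⟩ := cmp_sq hL hT hP
  obtain ⟨e₂, a2, h2⟩ := noI (r := r) (n := n) hB hG k0
  choose b hb using fun w => sz_tm hB hG (hP 0 ▸ pa_tame P 0) (hT w)
  have ε0 := lt_min a1 a2
  obtain ⟨b', b0, H⟩ := hp
  obtain ⟨G, ax, hp⟩ := H (Ball (b' + fun w => b w / min e₁ e₂) 0) (fun q => Ball.mono fun w =>
    le_add_of_nonneg_right (div_nonneg (hb w).1.1 ε0.le)) (isOp_ball _ _)
  have th : ∀ q, G q → Cmp P (fun t => sml (1 - t) (sq X L T q)) e₁ False ∧
      ∀ t ∈ Icc (0 : ℝ) 1, NoI (X.B L) (L.geo X.F) (sml t (sq X L T q)) k := fun q hq => by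
    have z : SzC (X.B L) (L.geo X.F) (sq X L T q) (min e₁ e₂) :=
      (szC_fsum fun w => (hb w).2).mono (by
        have := (ax.le q hq).mono (b := fun w => b w / min e₁ e₂) fun w => le_add_of_nonneg_left (b0 w)
        simp only [Ball, sub_zero, Finsupp.sum, ← mul_div_assoc, ← Finset.sum_div] at this
        exact ((div_lt_one ε0).1 this).le)
    exact ⟨h1 q _ (szD_fsum (fun w => (hb w).1) subset_rfl) (z.mono (min_le_left _ _)), fun t ht =>
      h2 _ ((z.sml t).mono ((mul_le_of_le_one_left ε0.le (abs_le.2 ⟨by linarith [ht.1], ht.2⟩)).trans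
        (min_le_right _ _)))⟩
  obtain ⟨q₀, -, g0⟩ := ax.ex _ St.isOp_true 0 (ball_self _ _) trivial
  obtain ⟨q, g1, -, g2⟩ := gen (th q₀ g0).1 szL (mds_sq hL hT hP hr q₀) (t := 0)
    ⟨le_rfl, zero_le_one⟩ hk (q₀ := 0) ⟨0, a1, fun t _ => P.bd_zero t⟩
    (hP 0 ▸ (th q₀ g0).2 _ (by simp)) (O := fun q => G (q₀ + q.embDomain e))
    (fun q hq α l u hu => ax.op _ hq α l _ (hu.map e q₀)) (by simpa using g0)
  rw [hP, sub_zero, sml_one, zero_add] at g2
  refine ⟨_, hp _ g1, ⟨P, hP, mds_sq hL hT hP hr _, e₁, a1, (th _ g1).1⟩, (th _ g1).2,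
    PEq.good (fun c hc => ⟨funext fun x => ?_, funext fun x => ?_, funext fun x => ?_⟩) g2⟩ <;>
  simp only [Pt.add, fsum, wq] <;>
  rw [Finsupp.sum_add_index' (by simp) (by simp [add_smul, add_mul]), Finsupp.sum_embDomain] <;>
  simp only [(he _ c hc).1, (he _ c hc).2.1, (he _ c hc).2.2] <;> rfl

end Crest.Agent.X212.Ins26
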