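import Crest.Agent.X212.Ins26.Defs

/-!
# Row 212, INST (helper26): cells of families, Stokes on chains
-/

set_option autoImplicit false
set_option linter.unusedSectionVars false
noncomputable section
open scoped Manifold ContDiff Topology
open Set Function Filter

namespace Crest.Agent.X212.Ins26
open An M G75 Jb7

theorem gv_true {Wi : Type} : GV fun _ : Wi →₀ ℝ => True :=
  Sml.of fun _ ho => (Gen.adm ho).mono fun _ _ _ => trivial

theorem gv_of {Wi : Type} {P : (Wi →₀ ℝ) → Prop} (h : ∀ q, P q) : GV P := gv_true.mono fun q _ => h q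

theorem gv_imp {Wi : Type} {p : Prop} {P : (Wi →₀ ℝ) → Prop} (h : p → GV P) : GV fun q => p → P q := by
  by_cases k : p
  exacts [(h k).mono fun _ a _ => a, gv_of fun _ a => (k a).elim]

theorem sum_congr_ne {L A : Type} [Fintype L] [Fintype A] (c : Cn L A) {f g : L → Finset A → ZMod 2}
    (h : ∀ i σ, c i σ ≠ 0 → f i σ = g i σ) : ∑ i, ∑ σ, c i σ * f i σ = ∑ i, ∑ σ, c i σ * g i σ :=
  Finset.sum_congr rfl fun i _ => Finset.sum_congr rfl fun σ _ => by
    by_cases k : c i σ = 0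
    · rw [k, zero_mul, zero_mul]
    · rw [h i σ k]

variable {κ lam : Type} [Fintype κ] [Fintype lam] [DecidableEq lam] {Lm : LM κ lam} {S : Scene Lm}
  {σ τ : Finset S.A} {o : Option Bool}

@[simp] theorem cel_inl (a : S.A) : cel σ o (.inl a) = if a ∈ σ then none else some false := rfl

@[simp] theorem cel_inr (u : Unit) : cel σ o (.inr u) = o := rfl

theorem fc_inl (a : S.A) : Job.fc (cel σ o) (.inl a, false) = cel (σ.erase a) o := by
  funext x
  rcases x with x | x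
  · by_cases h : x = a
    · simp [Job.fc, h]
    · simp [Job.fc, h]
  · simp [Job.fc]

theorem fc_inr (b : Bool) : Job.fc (cel σ o) (.inr (), b) = cel σ (some b) := by
  funext x
  rcases x with x | x <;> simp [Job.fc]

theorem cel_inj {o' : Option Bool} (h : cel σ o = cel τ o') : σ = τ ∧ o = o' :=
  ⟨Finset.ext fun a => by
    have := congrFun h (.inl a)
    by_cases h1 : a ∈ σ <;> by_cases h2 : a ∈ τ <;> simp_all, congrFun h (.inr ())⟩

theorem dim_cel : Job.dim (cel σ o) = σ.card + sf o := by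
  rw [Job.dim, Finset.card_filter, Fintype.sum_sum_type]
  cases o <;> simp [sf]

namespace Fam
variable {j N : ℕ} {F : Fam S j N} {T : ℝ} {i : S.L}

theorem hd_inl {a : S.A} (h : a ∈ hard S F.X) : (F.job i).hd (.inl a) = some a := if_pos h

theorem hd_inr (u : Unit) : (F.job i).hd (.inr u) = none := rfl

theorem OK.hard (h : F.OK T) (k : cel σ o ∈ F.𝒦 i) : ↑σ ⊆ hard S F.X :=
  let ⟨_, _, e, k', _⟩ := h.cell i _ k; (cel_inj e).1 ▸ k'

theorem OK.erase (h : F.OK T) (k : cel σ o ∈ F.𝒦 i) {a : S.A} (ha : a ∈ σ) :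
    cel (σ.erase a) o ∈ F.𝒦 i :=
  fc_inl (σ := σ) a ▸ (h.ok i ⟨_, k⟩).down _ k _ (Job.mem_wb.2 ⟨if_pos ha, by simp⟩)

theorem OK.soft (h : F.OK T) (k : cel σ none ∈ F.𝒦 i) (b : Bool) : cel σ (some b) ∈ F.𝒦 i :=
  fc_inr (σ := σ) (o := none) b ▸ (h.ok i ⟨_, k⟩).down _ k _ (Job.mem_wb.2 ⟨rfl, fun _ => rfl⟩)

/-- faces -/
theorem OK.sub (h : F.OK T) (k : cel σ o ∈ F.𝒦 i) (hτ : τ ⊆ σ) : cel τ o ∈ F.𝒦 i := by
  induction hn : (σ \ τ).card generalizing σ with
  | zero => rwa [← (Finset.sdiff_eq_empty_iff_subset.1 (Finset.card_eq_zero.1 hn)).antisymm hτ]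
  | succ n ih =>
    obtain ⟨a, ha⟩ := Finset.card_pos.1 (n.succ_pos.trans_eq hn.symm)
    rw [Finset.mem_sdiff] at ha
    refine ih (h.erase k ha.1) (Finset.subset_erase.2 ⟨hτ, ha.2⟩) ?_
    rw [Finset.erase_sdiff_comm, Finset.card_erase_of_mem (Finset.mem_sdiff.2 ha), hn]; rfl

theorem sum_wa (h : ↑σ ⊆ hard S F.X) (f : S.A ⊕ Unit → ℕ) :
    ∑ a ∈ (F.job i).wa (cel σ o), f a = ∑ a ∈ σ, f (.inl a) := by
  rw [Job.wa, Finset.sum_filter, Fintype.sum_sum_type, ← Fintype.sum_ite_mem σ]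
  refine (congrArg₂ _ (Finset.sum_congr rfl fun a _ => ?_) (by simp)).trans (add_zero _)
  by_cases k : a ∈ σ
  · simp [k, show a ∈ hard S F.X from h k]
  · simp [k]

theorem sum_wb (h : ↑σ ⊆ hard S F.X) (f : Cel (S.A ⊕ Unit) → ℕ) :
    ∑ b ∈ (F.job i).wb (cel σ o), f (Job.fc (cel σ o) b) = ∑ a ∈ σ, f (cel (σ.erase a) o) +
      if o = none then f (cel σ (some false)) + f (cel σ (some true)) else 0 := by
  rw [Job.wb, Finset.sum_filter, Fintype.sum_prod_type, Fintype.sum_sum_type,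
    ← Fintype.sum_ite_mem σ]
  congr 1
  · refine Finset.sum_congr rfl fun a _ => ?_
    by_cases k : a ∈ σ
    · simp [k, show a ∈ hard S F.X from h k, fc_inl]
    · simp [k]
  · cases o <;> simp [fc_inr, add_comm]

variable (F) in
/-- the faces at the further hard walls -/
def xf (q : F.Wi →₀ ℝ) (c : Cn S.L S.A) (o : Option Bool) : ZMod 2 :=
  ∑ i, ∑ σ, c i σ * ∑ a ∈ σ ∩ (F.X \ S.ls), ((F.job i).zf q (cel σ o) (.inl a) : ZMod 2)

theorem xf_empty (h : F.X = ∅) (q : F.Wi →₀ ℝ) (c : Cn S.L S.A) : F.xf q c o = 0 := by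
  simp [xf, h]

/-- Stokes on one cell -/
theorem OK.cell_stokes (h : F.OK T) (k : cel σ o ∈ F.𝒦 i) (hn : F.n₀ + σ.card + sf o = 1)
    {q : F.Wi →₀ ℝ} (hq : ∃ K : (F.job i).Kit, K.Ax ∧ K.GG q ∧ K.n₀ = F.n₀) :
    (∑ a ∈ σ, ((F.job i).z q (cel (σ.erase a) o) : ZMod 2) +
      (if o = none then ((F.job i).z q (cel σ (some false)) : ZMod 2) +
        (F.job i).z q (cel σ (some true)) else 0)) +
      ∑ a ∈ σ ∩ (F.X \ S.ls), ((F.job i).zf q (cel σ o) (.inl a) : ZMod 2) =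
      ∑ a ∈ σ ∩ S.ls, ((F.job i).zf q (cel σ o) (.inl a) : ZMod 2) := by
  obtain ⟨K, h1, h2, h3⟩ := hq
  have e := h1.stokes h2 k (by rw [dim_cel, h3, ← hn]; push_cast; ring)
  rw [sum_wb (h.hard k), sum_wa (h.hard k), ← ZMod.natCast_eq_zero_iff_even,
    ← Finset.sum_inter_add_sum_sdiff σ S.ls fun a => (F.job i).zf q (cel σ o) (.inl a)] at e
  have e' : ∑ a ∈ σ \ S.ls, (F.job i).zf q (cel σ o) (.inl a) =
      ∑ a ∈ σ ∩ (F.X \ S.ls), (F.job i).zf q (cel σ o) (.inl a) := by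
    refine (Finset.sum_subset (fun a ha => by simp_all) fun a h4 h5 => ?_).symm
    have h6 := h.hard k (Finset.mem_sdiff.1 h4).1
    exact h1.toAx0.zf_pin h2.1 k (hd_inl h6) (h6.resolve_right (by simp_all))
  rw [e'] at e
  push_cast at e
  exact CharTwo.add_eq_zero.1 (Eq.trans (by ring) e)

/-- **Stokes on chains** -/
theorem stokes (hS : S.OK) (h : F.OK T) (hK : F.KitAt) (hL : F.LensAt) {e : Cn S.L S.A}
    (hs : F.Sub e o) (hn : ∀ i σ, e i σ ≠ 0 → F.n₀ + σ.card + sf o = 1)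
    (sym : ∀ l ∈ S.ls, ∀ i σ, l ∈ σ → e (S.fl l i) σ = e i σ) :
    GV fun q => F.val q e.bd o + (if o = none then F.val q e (some false) + F.val q e (some true)
      else 0) + F.xf q e o = 0 := by
  refine ((GV.all fun i => gv_imp (hK i)).and (GV.all fun x : S.L × S.ls × Finset S.A =>
    gv_imp fun k : e x.1 x.2.2 ≠ 0 ∧ x.2.1.1 ∈ x.2.2 => hL x.1 x.2.1 x.2.2 o (hs _ _ k.1)
      (hs _ _ (by rw [sym _ x.2.1.2 _ _ k.2]; exact k.1)) k.2 (hn _ _ k.1))).mono fun q hq => ?_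
  have e1 : F.val q e.bd o = ∑ i, ∑ σ, e i σ * ∑ a ∈ σ, ((F.job i).z q (cel (σ.erase a) o) : ZMod 2) :=
    Finset.sum_congr rfl fun i _ => Ch.pair_bdry (fun σ => ((F.job i).z q (cel σ o) : ZMod 2)) (e i)
  have e2 : (if o = none then F.val q e (some false) + F.val q e (some true) else 0) =
      ∑ i, ∑ σ, e i σ * if o = none then ((F.job i).z q (cel σ (some false)) : ZMod 2) +
        (F.job i).z q (cel σ (some true)) else 0 := by
    cases o <;> simp [val, mul_add, Finset.sum_add_distrib]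
  rw [e1, e2, xf]
  simp only [← Finset.sum_add_distrib, ← mul_add]
  rw [sum_congr_ne e fun i σ k => h.cell_stokes (hs i σ k) (hn i σ k) (hq.1 i ⟨_, hs i σ k⟩),
    Finset.sum_comm]
  refine Finset.sum_eq_zero fun σ _ => ?_
  simp only [Finset.mul_sum]
  rw [Finset.sum_comm]
  refine Finset.sum_eq_zero fun l hl => ?_
  obtain ⟨h1, h2⟩ := Finset.mem_inter.1 hl
  refine Finset.sum_involution (fun i _ => S.fl l i) (fun i _ => ?_) (fun i _ _ k => ?_)
    (fun _ _ => Finset.mem_univ _) fun i _ => hS.inv l h2 i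
  · rw [sym l h2 i σ h1]
    by_cases k : e i σ = 0
    · rw [k, zero_mul, zero_mul, add_zero]
    · rw [← hq.2 (i, ⟨l, h2⟩, σ) ⟨k, h1⟩, CharTwo.add_self_eq_zero]
  · have := hS.sg l h2 i
    rw [k] at this
    simp at this

end Fam
end Crest.Agent.X212.Ins26
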